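import Mathlib

/-!
Averaging a mean-zero function on a finite abelian group over a random subgroup contracts it by the
largest chance that a nontrivial character is trivial on the subgroup.
-/

namespace Vale.Agent.P067

open Finset
open scoped BigOperators

variable {G : Type*} [AddCommGroup G] [Fintype G]

/-- The Fourier coefficient at a character. -/
noncomputable def charCoef (F : G → ℝ) (ψ : AddChar G ℂ) : ℂ := ∑ x, (F x : ℂ) * ψ x

lemma sum_normSq_charCoef_mul (F : G → ℝ) (y : G) :
    ∑ ψ : AddChar G ℂ, (Complex.normSq (charCoef F ψ) : ℂ) * ψ y =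
      (Fintype.card G : ℂ) * ((∑ x, F x * F (x + y) : ℝ) : ℂ) := by
  classical
  have e : ∀ ψ : AddChar G ℂ, (Complex.normSq (charCoef F ψ) : ℂ) * ψ y =
      ∑ x, ∑ x', ((F x : ℂ) * F x') * ψ (x - x' + y) := fun ψ => by
    rw [← Complex.mul_conj, charCoef, map_sum, sum_mul_sum, sum_mul]
    refine sum_congr rfl fun x _ => ?_
    rw [sum_mul]
    refine sum_congr rfl fun x' _ => ?_
    rw [map_mul, Complex.conj_ofReal, ← AddChar.map_neg_eq_conj, sub_eq_add_neg,
      AddChar.map_add_eq_mul, AddChar.map_add_eq_mul]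
    ring
  simp only [e]
  rw [sum_comm]
  push_cast
  rw [mul_sum]
  refine sum_congr rfl fun x _ => ?_
  rw [sum_comm, sum_eq_single (x + y)]
  · rw [← mul_sum, AddChar.sum_apply_eq_ite, if_pos (by abel)]
    ring
  · intro x' _ hx'
    rw [← mul_sum, AddChar.sum_apply_eq_ite, if_neg, mul_zero]
    rw [sub_add_eq_add_sub, sub_eq_zero]
    exact fun h => hx' h.symm
  · simp

/-- If every nontrivial character is trivial on at most a fraction `c` of the subgroups given by
the maps `φ`, then averaging over them contracts mean-zero functions by `c`. -/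
lemma sum_translate_le {U I : Type*} [AddCommGroup U] [Fintype U] [Fintype I] (φ : I → U →+ G)
    (c : ℝ) (hc : ∀ ψ : AddChar G ℂ, ψ ≠ 0 →
      (Nat.card {i : I // ∀ u, ψ (φ i u) = 1} : ℝ) ≤ c * Fintype.card I)
    (F : G → ℝ) (hF : ∑ x, F x = 0) :
    ∑ i, ∑ u, ∑ x, F x * F (x + φ i u) ≤
      c * Fintype.card I * Fintype.card U * ∑ x, F x ^ 2 := by
  classical
  have h0 : charCoef F 0 = 0 := by
    simp [charCoef, AddChar.zero_apply, ← Complex.ofReal_sum, hF]
  have hpars : ∑ ψ : AddChar G ℂ, Complex.normSq (charCoef F ψ) =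
      Fintype.card G * ∑ x, F x ^ 2 := by
    have h := sum_normSq_charCoef_mul F 0
    simp only [AddChar.map_zero_eq_one, mul_one, add_zero, ← pow_two] at h
    exact_mod_cast h
  have hker : ∀ (ψ : AddChar G ℂ) (i : I), ∑ u, ψ (φ i u) =
      if ∀ u, ψ (φ i u) = 1 then (Fintype.card U : ℂ) else 0 := fun ψ i => by
    have h := AddChar.sum_eq_ite (ψ.compAddMonoidHom (φ i))
    simp only [AddChar.compAddMonoidHom_apply] at h
    rw [h]
    refine if_congr ?_ rfl rfl
    simp [AddChar.eq_zero_iff, AddChar.compAddMonoidHom_apply]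
  have key : (Fintype.card G : ℝ) * ∑ i, ∑ u, ∑ x, F x * F (x + φ i u) =
      ∑ ψ : AddChar G ℂ, Complex.normSq (charCoef F ψ) *
        ((Nat.card {i : I // ∀ u, ψ (φ i u) = 1} : ℝ) * Fintype.card U) := by
    apply Complex.ofReal_injective
    push_cast
    have hx := fun (i : I) (u : U) => sum_normSq_charCoef_mul F (φ i u)
    push_cast at hx
    simp only [mul_sum] at hx ⊢
    simp only [← hx]
    rw [sum_congr rfl fun (i : I) _ => sum_comm, sum_comm]
    refine sum_congr rfl fun ψ _ => ?_
    simp only [← mul_sum, hker ψ]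
    rw [← sum_filter, sum_const, Nat.card_eq_fintype_card, Fintype.card_subtype, nsmul_eq_mul]
  have hGpos : (0 : ℝ) < Fintype.card G := by exact_mod_cast Fintype.card_pos
  refine le_of_mul_le_mul_left ?_ hGpos
  rw [key]
  calc ∑ ψ : AddChar G ℂ, Complex.normSq (charCoef F ψ) *
        ((Nat.card {i : I // ∀ u, ψ (φ i u) = 1} : ℝ) * Fintype.card U)
      ≤ ∑ ψ : AddChar G ℂ, Complex.normSq (charCoef F ψ) * (c * Fintype.card I * Fintype.card U) := by
        refine sum_le_sum fun ψ _ => ?_
        rcases eq_or_ne ψ 0 with rfl | hψ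
        · simp [h0]
        · gcongr
          · exact Complex.normSq_nonneg _
          · exact hc ψ hψ
    _ = _ := by rw [← sum_mul, hpars]; ring

end Vale.Agent.P067
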