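import Mathlib

/-!
Trickling down for a finite partite family: small link gaps and connectivity give small pair gaps.
-/

namespace Vale.Agent.P067

open Finset
open scoped BigOperators

variable {Ω A B C : Type*} [Fintype Ω]

/-- The pair graph of two projections has second singular value at most `c`. -/
def PairGap (π : Ω → A) (ρ : Ω → B) (c : ℝ) : Prop :=
  ∀ f g : Ω → ℝ, (∀ w w', π w = π w' → f w = f w') → (∀ w w', ρ w = ρ w' → g w = g w') →
    ∑ w, f w = 0 → ∑ w, g w = 0 →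
      ∑ w, f w * g w ≤ c * (Real.sqrt (∑ w, f w ^ 2) * Real.sqrt (∑ w, g w ^ 2))

/-- In every fibre of `σ` the pair graph of `π` and `ρ` has second singular value at most `c`. -/
def LinkGap [DecidableEq C] (π : Ω → A) (ρ : Ω → B) (σ : Ω → C) (c : ℝ) : Prop :=
  ∀ x : C, ∀ f g : Ω → ℝ,
    (∀ w w', σ w = x → σ w' = x → π w = π w' → f w = f w') →
    (∀ w w', σ w = x → σ w' = x → ρ w = ρ w' → g w = g w') →
    ∑ w ∈ univ.filter (fun w => σ w = x), f w = 0 →
    ∑ w ∈ univ.filter (fun w => σ w = x), g w = 0 →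
      ∑ w ∈ univ.filter (fun w => σ w = x), f w * g w ≤
        c * (Real.sqrt (∑ w ∈ univ.filter (fun w => σ w = x), f w ^ 2) *
          Real.sqrt (∑ w ∈ univ.filter (fun w => σ w = x), g w ^ 2))

/-- The mean over the fibre of `σ`. -/
noncomputable def fibMean [DecidableEq C] (σ : Ω → C) (f : Ω → ℝ) (x : C) : ℝ :=
  (∑ w ∈ univ.filter (fun w => σ w = x), f w) / (univ.filter fun w => σ w = x).card

lemma sum_fibre_fibMean [DecidableEq C] (σ : Ω → C) (f : Ω → ℝ) (x : C) :
    ∑ w ∈ univ.filter (fun w => σ w = x), (f w - fibMean σ f (σ w)) = 0 := by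
  rw [sum_sub_distrib, sum_congr rfl (fun w hw => by rw [(mem_filter.1 hw).2] :
    ∀ w ∈ univ.filter (fun w => σ w = x), fibMean σ f (σ w) = fibMean σ f x), sum_const, nsmul_eq_mul]
  rcases eq_or_ne (univ.filter fun w => σ w = x).card 0 with h | h
  · simp [fibMean, card_eq_zero.1 h]
  · rw [fibMean, mul_div_cancel₀ _ (by exact_mod_cast h), sub_self]

lemma sum_fibMean_mul [DecidableEq C] (σ : Ω → C) (f : Ω → ℝ) (G : C → ℝ) :
    ∑ w, (f w - fibMean σ f (σ w)) * G (σ w) = 0 := by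
  classical
  rw [← sum_fiberwise_of_maps_to (g := σ) (t := univ.image σ) (fun w hw => mem_image_of_mem σ hw)]
  refine sum_eq_zero fun x _ => ?_
  rw [sum_congr rfl fun w hw => by rw [show G (σ w) = G x by rw [(mem_filter.1 hw).2]], ← sum_mul,
    sum_fibre_fibMean, zero_mul]

/-- One step of trickling down through the fibres of a third projection. -/
lemma trickle_step [DecidableEq C] {π : Ω → A} {ρ : Ω → B} {σ : Ω → C} {lam M : ℝ} (hlam : 0 ≤ lam)
    (hlam1 : lam ≤ 1) (hM : 0 ≤ M) (hπσ : PairGap π σ M) (hρσ : PairGap ρ σ M)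
    (hl : LinkGap π ρ σ lam) : PairGap π ρ (lam + (1 - lam) * M ^ 2) := by
  classical
  intro f g hf hg hf0 hg0
  set a := fun w => fibMean σ f (σ w) with ha
  set b := fun w => fibMean σ g (σ w) with hb
  have ha0 : ∑ w, a w = 0 := by
    have := sum_fibMean_mul σ f fun _ => 1
    simp only [mul_one, sum_sub_distrib, hf0] at this
    simpa [ha] using this
  have hb0 : ∑ w, b w = 0 := by
    have := sum_fibMean_mul σ g fun _ => 1
    simp only [mul_one, sum_sub_distrib, hg0] at this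
    simpa [hb] using this
  have hfa : ∀ w w', σ w = σ w' → a w = a w' := fun w w' h => by simp [ha, h]
  have hgb : ∀ w w', σ w = σ w' → b w = b w' := fun w w' h => by simp [hb, h]
  have haa : ∑ w, (f w - a w) * a w = 0 := sum_fibMean_mul σ f (fibMean σ f)
  have hab : ∑ w, (f w - a w) * b w = 0 := sum_fibMean_mul σ f (fibMean σ g)
  have hba : ∑ w, (g w - b w) * a w = 0 := sum_fibMean_mul σ g (fibMean σ f)
  have hbb : ∑ w, (g w - b w) * b w = 0 := sum_fibMean_mul σ g (fibMean σ g)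
  simp only [sub_mul, sum_sub_distrib] at haa hab hba hbb
  set F := Real.sqrt (∑ w, f w ^ 2)
  set G := Real.sqrt (∑ w, g w ^ 2)
  set P := Real.sqrt (∑ w, a w ^ 2)
  set Q := Real.sqrt (∑ w, b w ^ 2)
  have hP2 : P ^ 2 = ∑ w, a w ^ 2 := Real.sq_sqrt (sum_nonneg fun w _ => sq_nonneg _)
  have hQ2 : Q ^ 2 = ∑ w, b w ^ 2 := Real.sq_sqrt (sum_nonneg fun w _ => sq_nonneg _)
  have hF2 : F ^ 2 = ∑ w, f w ^ 2 := Real.sq_sqrt (sum_nonneg fun w _ => sq_nonneg _)
  have hG2 : G ^ 2 = ∑ w, g w ^ 2 := Real.sq_sqrt (sum_nonneg fun w _ => sq_nonneg _)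
  have hP0 : 0 ≤ P := Real.sqrt_nonneg _
  have hQ0 : 0 ≤ Q := Real.sqrt_nonneg _
  have hF0 : 0 ≤ F := Real.sqrt_nonneg _
  have hG0 : 0 ≤ G := Real.sqrt_nonneg _
  have hPF : P ≤ M * F := by
    have h := hπσ f a hf hfa hf0 ha0
    have e : ∑ w, f w * a w = P ^ 2 := by
      rw [hP2]; simp only [pow_two]; linarith
    rw [e] at h
    rcases hP0.eq_or_lt with h0 | h0
    · rw [← h0]; positivity
    · exact le_of_mul_le_mul_right (by linarith) h0
  have hQG : Q ≤ M * G := by
    have h := hρσ g b hg hgb hg0 hb0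
    have e : ∑ w, g w * b w = Q ^ 2 := by
      rw [hQ2]; simp only [pow_two]; linarith
    rw [e] at h
    rcases hQ0.eq_or_lt with h0 | h0
    · rw [← h0]; positivity
    · exact le_of_mul_le_mul_right (by linarith) h0
  set U := Real.sqrt (∑ w, (f w - a w) ^ 2)
  set V := Real.sqrt (∑ w, (g w - b w) ^ 2)
  have hU2 : U ^ 2 = F ^ 2 - P ^ 2 := by
    rw [Real.sq_sqrt (sum_nonneg fun w _ => sq_nonneg _), hF2, hP2]
    simp only [sub_sq, sum_add_distrib, sum_sub_distrib, mul_assoc, ← mul_sum]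
    simp only [pow_two] at *
    linarith
  have hV2 : V ^ 2 = G ^ 2 - Q ^ 2 := by
    rw [Real.sq_sqrt (sum_nonneg fun w _ => sq_nonneg _), hG2, hQ2]
    simp only [sub_sq, sum_add_distrib, sum_sub_distrib, mul_assoc, ← mul_sum]
    simp only [pow_two] at *
    linarith
  have hlink : ∑ w, (f w - a w) * (g w - b w) ≤ lam * (U * V) := by
    rw [← sum_fiberwise_of_maps_to (g := σ) (t := univ.image σ) (fun w hw => mem_image_of_mem σ hw)]
    calc _ ≤ ∑ x ∈ univ.image σ, lam * (Real.sqrt (∑ w ∈ univ.filter (fun w => σ w = x), (f w - a w) ^ 2) *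
          Real.sqrt (∑ w ∈ univ.filter (fun w => σ w = x), (g w - b w) ^ 2)) :=
          sum_le_sum fun x _ => hl x _ _
            (fun w w' h1 h2 h => by rw [hf w w' h, hfa w w' (h1.trans h2.symm)])
            (fun w w' h1 h2 h => by rw [hg w w' h, hgb w w' (h1.trans h2.symm)])
            (sum_fibre_fibMean σ f x) (sum_fibre_fibMean σ g x)
      _ ≤ lam * (U * V) := by
          rw [← mul_sum]
          refine mul_le_mul_of_nonneg_left ((Real.sum_sqrt_mul_sqrt_le _
            (fun _ => sum_nonneg fun _ _ => sq_nonneg _) fun _ => sum_nonneg fun _ _ => sq_nonneg _).trans_eq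
              ?_) hlam
          rw [sum_fiberwise_of_maps_to (fun w hw => mem_image_of_mem σ hw),
            sum_fiberwise_of_maps_to (fun w hw => mem_image_of_mem σ hw)]
  have hPQ : ∑ w, a w * b w ≤ P * Q := Real.sum_mul_le_sqrt_mul_sqrt _ _ _
  have hsplit : ∑ w, f w * g w = ∑ w, a w * b w + ∑ w, (f w - a w) * (g w - b w) := by
    simp only [mul_sub, sub_mul, sum_sub_distrib]
    have e : ∑ w, b w * a w = ∑ w, a w * b w := sum_congr rfl fun w _ => mul_comm _ _
    have e' : ∑ w, g w * a w = ∑ w, a w * g w := sum_congr rfl fun w _ => mul_comm _ _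
    linarith
  have hU0 : 0 ≤ U := Real.sqrt_nonneg _
  have hV0 : 0 ≤ V := Real.sqrt_nonneg _
  have hUV : U * V + P * Q ≤ F * G := by
    nlinarith [sq_nonneg (U * Q - V * P), mul_nonneg hF0 hG0, mul_nonneg hU0 hV0, mul_nonneg hP0 hQ0]
  have hPQ' : P * Q ≤ M ^ 2 * (F * G) :=
    (mul_le_mul hPF hQG hQ0 (by positivity)).trans_eq (by ring)
  nlinarith [mul_le_mul_of_nonneg_left hUV hlam, mul_le_mul_of_nonneg_left hPQ' (sub_nonneg.2 hlam1)]

/-- Two projections are joined if only constants factor through both. -/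
def Joined (π : Ω → A) (ρ : Ω → B) : Prop :=
  ∀ f : Ω → ℝ, (∀ w w', π w = π w' → f w = f w') → (∀ w w', ρ w = ρ w' → f w = f w') →
    ∀ w w', f w = f w'

/-- Joined projections have a gap, and the best constant is attained. -/
lemma exists_pairGap_lt_one {π : Ω → A} {ρ : Ω → B} (h : Joined π ρ) :
    ∃ c, 0 ≤ c ∧ c < 1 ∧ PairGap π ρ c ∧
      ∀ c', 0 ≤ c' → PairGap π ρ c' → c ≤ c' := by
  set K : Set ((Ω → ℝ) × (Ω → ℝ)) := {q | (∑ w, q.1 w ^ 2 ≤ 1 ∧ ∑ w, q.2 w ^ 2 ≤ 1) ∧
    ((∀ w w', π w = π w' → q.1 w = q.1 w') ∧ (∀ w w', ρ w = ρ w' → q.2 w = q.2 w')) ∧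
    (∑ w, q.1 w = 0 ∧ ∑ w, q.2 w = 0)}
  have hcl : IsClosed K := by
    simp only [K, Set.ofPred_and, Set.ofPred_forall]
    refine IsClosed.inter ((isClosed_le (by fun_prop) continuous_const).inter
      (isClosed_le (by fun_prop) continuous_const)) (IsClosed.inter (IsClosed.inter ?_ ?_)
      ((isClosed_eq (by fun_prop) continuous_const).inter (isClosed_eq (by fun_prop) continuous_const))) <;>
      exact isClosed_iInter fun w => isClosed_iInter fun w' => isClosed_iInter fun _ =>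
        isClosed_eq (by fun_prop) (by fun_prop)
  have hsub : K ⊆ Set.Icc (fun _ => -1, fun _ => -1) (fun _ => 1, fun _ => 1) := by
    rintro q ⟨⟨h1, h2⟩, -, -⟩
    have k1 : ∀ w, |q.1 w| ≤ 1 := fun w => by
      have := (single_le_sum (fun w _ => sq_nonneg (q.1 w)) (mem_univ w)).trans h1
      exact abs_le_one_iff_mul_self_le_one.2 (by simpa [pow_two] using this)
    have k2 : ∀ w, |q.2 w| ≤ 1 := fun w => by
      have := (single_le_sum (fun w _ => sq_nonneg (q.2 w)) (mem_univ w)).trans h2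
      exact abs_le_one_iff_mul_self_le_one.2 (by simpa [pow_two] using this)
    exact ⟨⟨fun w => (abs_le.1 (k1 w)).1, fun w => (abs_le.1 (k2 w)).1⟩,
      ⟨fun w => (abs_le.1 (k1 w)).2, fun w => (abs_le.1 (k2 w)).2⟩⟩
  have hne : ((0 : Ω → ℝ), (0 : Ω → ℝ)) ∈ K := by simp [K]
  obtain ⟨⟨u, v⟩, huv, hmax⟩ := (isCompact_Icc.of_isClosed_subset hcl hsub).exists_isMaxOn ⟨_, hne⟩
    (f := fun q : (Ω → ℝ) × (Ω → ℝ) => ∑ w, q.1 w * q.2 w) (Continuous.continuousOn (by fun_prop))
  obtain ⟨⟨hu1, hv1⟩, ⟨huπ, hvρ⟩, hu0, hv0⟩ := huv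
  refine ⟨∑ w, u w * v w, by simpa using hmax hne, ?_, fun f g hf hg hf0 hg0 => ?_, fun c' h0 hc' => ?_⟩
  · by_contra hge
    rw [not_lt] at hge
    have h0 : ∑ w, (u w - v w) ^ 2 = 0 := by
      refine le_antisymm ?_ (sum_nonneg fun w _ => sq_nonneg _)
      simp only [sub_sq, sum_add_distrib, sum_sub_distrib, mul_assoc, ← mul_sum]
      linarith
    have he : ∀ w, u w = v w := fun w => by
      have := (sum_eq_zero_iff_of_nonneg fun w _ => sq_nonneg (u w - v w)).1 h0 w (mem_univ w)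
      linarith [pow_eq_zero_iff two_ne_zero |>.1 this]
    have hc := h u huπ fun w w' hw => by rw [he w, he w']; exact hvρ w w' hw
    have hz : ∀ w, u w = 0 := fun w => by
      rw [sum_congr rfl fun w' _ => hc w' w, sum_const, nsmul_eq_mul] at hu0
      exact (mul_eq_zero.1 hu0).resolve_left (Nat.cast_ne_zero.2 (card_ne_zero.2 ⟨w, mem_univ w⟩))
    have : ∑ w, u w * v w = 0 := sum_eq_zero fun w _ => by rw [hz w, zero_mul]
    linarith
  · set F := Real.sqrt (∑ w, f w ^ 2) with hF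
    set G := Real.sqrt (∑ w, g w ^ 2) with hG
    rcases eq_or_lt_of_le (show 0 ≤ F * G by positivity) with h0 | h0
    · rw [← h0, mul_zero]
      exact (Real.sum_mul_le_sqrt_mul_sqrt _ _ _).trans_eq h0.symm
    · have hF0 : 0 < F := lt_of_le_of_ne (Real.sqrt_nonneg _) fun e => by simp [← e] at h0
      have hG0 : 0 < G := lt_of_le_of_ne (Real.sqrt_nonneg _) fun e => by simp [← e] at h0
      have hF2 : F ^ 2 = ∑ w, f w ^ 2 := Real.sq_sqrt (sum_nonneg fun w _ => sq_nonneg _)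
      have hG2 : G ^ 2 = ∑ w, g w ^ 2 := Real.sq_sqrt (sum_nonneg fun w _ => sq_nonneg _)
      have hmem : ((fun w => f w / F), fun w => g w / G) ∈ K := by
        refine ⟨⟨?_, ?_⟩, ⟨fun w w' hw => ?_, fun w w' hw => ?_⟩, ?_, ?_⟩
        · simp only [div_pow, ← sum_div, hF2]
          exact div_self_le_one _
        · simp only [div_pow, ← sum_div, hG2]
          exact div_self_le_one _
        · simp only [hf w w' hw]
        · simp only [hg w w' hw]
        · simp only [← sum_div, hf0, zero_div]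
        · simp only [← sum_div, hg0, zero_div]
      have := hmax hmem
      simp only [Set.mem_ofPred_eq, div_mul_div_comm, ← sum_div, div_le_iff₀ h0] at this
      exact this
  · refine (hc' u v huπ hvρ hu0 hv0).trans (mul_le_of_le_one_right h0 ?_)
    exact mul_le_one₀ (Real.sqrt_le_one.2 hu1) (Real.sqrt_nonneg _) (Real.sqrt_le_one.2 hv1)

/-- Trickling down: link gaps `lam` and connectivity give pair gaps `2 * lam`. -/
theorem pairGap_of_linkGap {κ : Type*} [Fintype κ] {V : Type*} [DecidableEq V] (π : κ → Ω → V)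
    {lam : ℝ} (hlam : 0 ≤ lam) (hlam2 : lam ≤ 1 / 2)
    (hthird : ∀ i j : κ, ∃ l, l ≠ i ∧ l ≠ j)
    (hjoin : ∀ i j, i ≠ j → Joined (π i) (π j))
    (hlink : ∀ i j l, i ≠ j → l ≠ i → l ≠ j → LinkGap (π i) (π j) (π l) lam) :
    ∀ i j, i ≠ j → PairGap (π i) (π j) (2 * lam) := by
  intro a b hab
  choose c hc0 hc1 hc hbest using fun q : {q : κ × κ // q.1 ≠ q.2} =>
    exists_pairGap_lt_one (hjoin q.1.1 q.1.2 q.2)
  have : Nonempty {q : κ × κ // q.1 ≠ q.2} := ⟨⟨(a, b), hab⟩⟩
  obtain ⟨q, hq⟩ := Finite.exists_max c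
  have hmono : ∀ i j, i ≠ j → PairGap (π i) (π j) (c q) := fun i j h f g hf hg hf0 hg0 =>
    (hc ⟨(i, j), h⟩ f g hf hg hf0 hg0).trans (mul_le_mul_of_nonneg_right (hq _) (by positivity))
  obtain ⟨l, hli, hlj⟩ := hthird q.1.1 q.1.2
  have hstep : PairGap (π q.1.1) (π q.1.2) (lam + (1 - lam) * c q ^ 2) :=
    trickle_step hlam (by linarith) (hc0 q) (hmono _ _ hli.symm) (hmono _ _ hlj.symm)
      (hlink _ _ l q.2 hli hlj)
  have h1 : c q ≤ lam + (1 - lam) * c q ^ 2 :=
    hbest q _ (add_nonneg hlam (mul_nonneg (by linarith) (sq_nonneg _))) hstep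
  have h3 : (1 - lam) * c q ≤ lam := by nlinarith [hc1 q]
  have h2 : c q ≤ 2 * lam := by nlinarith [hc0 q]
  intro f g hf hg hf0 hg0
  exact (hmono a b hab f g hf hg hf0 hg0).trans (mul_le_mul_of_nonneg_right h2 (by positivity))

end Vale.Agent.P067
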