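import Mathlib

/-!
The height filtration on congruence matrix groups over a truncated polynomial ring: a subgroup
containing every slice from some height on contains the congruence subgroup of that height.
-/

open Matrix

namespace Vale.Agent.P067.Slices

variable {k : ℕ} {F A : Type*} [Field F] [CommRing A] [Algebra F A]

/-- Least power of `t` allowed at `(m, l)` in height `h`. -/
def ord (h : ℕ) (m l : Fin k) : ℕ := (h + m.1 + (k - 1 - l.1)) / k

theorem ord_le_iff {h : ℕ} {m l : Fin k} {j : ℕ} :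
    ord h m l ≤ j ↔ h + m.1 ≤ j * k + l.1 := by
  have hk : 0 < k := m.pos
  have hl := l.isLt
  rw [ord, ← Nat.lt_succ_iff, Nat.div_lt_iff_lt_mul hk, Nat.succ_mul]
  omega

theorem le_ord_mul (h : ℕ) (m l : Fin k) : h + m.1 ≤ ord h m l * k + l.1 := ord_le_iff.1 le_rfl

theorem ord_mono {h h' : ℕ} (hh : h ≤ h') (m l : Fin k) : ord h m l ≤ ord h' m l :=
  ord_le_iff.2 (le_trans (by omega) (le_ord_mul h' m l))

theorem ord_add_le (a b : ℕ) (m n l : Fin k) : ord (a + b) m l ≤ ord a m n + ord b n l := by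
  refine ord_le_iff.2 ?_
  have h1 := le_ord_mul a m n
  have h2 := le_ord_mul b n l
  rw [Nat.add_mul]
  omega

/-- The truncation data: `A` is `F[t]/(t^s)`, stated by what is used. -/
structure Trunc (F : Type*) [Field F] (A : Type*) [CommRing A] [Algebra F A] (t : A) (s : ℕ) :
    Prop where
  nil : t ^ s = 0
  dec : ∀ a : A, ∃ c : F, ∃ a' : A, a = algebraMap F A c + t * a'
  free : ∀ (c : F) (q : ℕ), q < s → t ^ (q + 1) ∣ algebraMap F A c * t ^ q → c = 0

/-- The ideal of height at least `h`. -/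
def Ih (t : A) (h : ℕ) : Set (Matrix (Fin k) (Fin k) A) := {x | ∀ m l, t ^ ord h m l ∣ x m l}

variable {t : A} {s : ℕ}

theorem ih_anti {h h' : ℕ} (hh : h ≤ h') {x : Matrix (Fin k) (Fin k) A} (hx : x ∈ Ih t h') :
    x ∈ Ih t h :=
  fun m l => (pow_dvd_pow t (ord_mono hh m l)).trans (hx m l)

theorem ih_zero (h : ℕ) : (0 : Matrix (Fin k) (Fin k) A) ∈ Ih t h := fun _ _ => dvd_zero _

theorem ih_add {h : ℕ} {x y : Matrix (Fin k) (Fin k) A} (hx : x ∈ Ih t h) (hy : y ∈ Ih t h) :
    x + y ∈ Ih t h :=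
  fun m l => by simpa using dvd_add (hx m l) (hy m l)

theorem ih_neg {h : ℕ} {x : Matrix (Fin k) (Fin k) A} (hx : x ∈ Ih t h) : -x ∈ Ih t h :=
  fun m l => by simpa using (hx m l).neg_right

theorem ih_sub {h : ℕ} {x y : Matrix (Fin k) (Fin k) A} (hx : x ∈ Ih t h) (hy : y ∈ Ih t h) :
    x - y ∈ Ih t h := by
  rw [sub_eq_add_neg]; exact ih_add hx (ih_neg hy)

theorem ih_sum {h : ℕ} {ι : Type*} (u : Finset ι) (f : ι → Matrix (Fin k) (Fin k) A)
    (hf : ∀ i ∈ u, f i ∈ Ih t h) : ∑ i ∈ u, f i ∈ Ih t h := fun m l => by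
  rw [Matrix.sum_apply]; exact Finset.dvd_sum fun i hi => hf i hi m l

theorem ih_mul {a b : ℕ} {x y : Matrix (Fin k) (Fin k) A} (hx : x ∈ Ih t a) (hy : y ∈ Ih t b) :
    x * y ∈ Ih t (a + b) := fun m l => by
  rw [Matrix.mul_apply]
  refine Finset.dvd_sum fun n _ => ?_
  exact (pow_dvd_pow t (ord_add_le a b m n l)).trans (pow_add t _ _ ▸ mul_dvd_mul (hx m n) (hy n l))

theorem ih_top (hT : Trunc F A t s) {h : ℕ} (hh : s * k ≤ h) {x : Matrix (Fin k) (Fin k) A}
    (hx : x ∈ Ih t h) : x = 0 := by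
  ext m l
  have h1 := le_ord_mul h m l
  have hl := l.isLt
  have h2 : s ≤ ord h m l := by
    by_contra hc
    have : (ord h m l + 1) * k ≤ s * k := Nat.mul_le_mul_right k (by omega)
    rw [Nat.succ_mul] at this
    omega
  obtain ⟨c, hc⟩ := hx m l
  rw [Matrix.zero_apply, hc, pow_eq_zero_of_le h2 hT.nil, zero_mul]

theorem ih_pow {h : ℕ} {x : Matrix (Fin k) (Fin k) A} (hx : x ∈ Ih t h) :
    ∀ i : ℕ, x ^ (i + 1) ∈ Ih t ((i + 1) * h)
  | 0 => by simpa using hx
  | i + 1 => by rw [pow_succ, Nat.succ_mul]; exact ih_mul (ih_pow hx i) hx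

/-- `1 + x` has its inverse in the same filtration step. -/
theorem exists_inv (hT : Trunc F A t s) {h : ℕ} (hh : 1 ≤ h) {x : Matrix (Fin k) (Fin k) A}
    (hx : x ∈ Ih t h) : ∃ y ∈ Ih t h, (1 + x) * (1 + y) = 1 := by
  rcases Nat.eq_zero_or_pos (s * k) with h0 | h0
  · have : x = 0 := ih_top hT (by omega) hx
    exact ⟨0, ih_zero h, by simp [this]⟩
  refine ⟨∑ i ∈ Finset.range (s * k - 1), (-x) ^ (i + 1), ih_sum _ _ fun i _ =>
    ih_anti (Nat.le_mul_of_pos_left h i.succ_pos) (ih_pow (ih_neg hx) i), ?_⟩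
  have hg : ∑ i ∈ Finset.range (s * k), (-x) ^ i
      = 1 + ∑ i ∈ Finset.range (s * k - 1), (-x) ^ (i + 1) := by
    conv_lhs => rw [show s * k = (s * k - 1) + 1 by omega]
    rw [Finset.sum_range_succ', pow_zero, add_comm]
  have hz : (-x) ^ (s * k) = 0 := by
    refine ih_top hT (Nat.le_mul_of_pos_right (s * k) hh) ?_
    have := ih_pow (ih_neg hx) (s * k - 1)
    rwa [show s * k - 1 + 1 = s * k by omega] at this
  rw [← hg]
  have := mul_neg_geom_sum (-x) (s * k)
  rw [hz, sub_zero, sub_neg_eq_add] at this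
  exact this

theorem one_add_mul_mem {h : ℕ} {x y : Matrix (Fin k) (Fin k) A} (hy : y ∈ Ih t h) {a : ℕ}
    (hx : x ∈ Ih t a) : (1 + x) * y ∈ Ih t h := by
  rw [add_mul, one_mul]
  exact ih_add hy (ih_anti (by omega) (ih_mul hx hy))

theorem mul_one_add_mem {h : ℕ} {x y : Matrix (Fin k) (Fin k) A} (hy : y ∈ Ih t h) {a : ℕ}
    (hx : x ∈ Ih t a) : y * (1 + x) ∈ Ih t h := by
  rw [mul_add, mul_one]
  exact ih_add hy (ih_anti (by omega) (ih_mul hy hx))

theorem val_inv_mul (g : SpecialLinearGroup (Fin k) A) :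
    ((g⁻¹ : SpecialLinearGroup (Fin k) A) : Matrix (Fin k) (Fin k) A) * (g : Matrix (Fin k) (Fin k) A)
      = 1 :=
  congrArg Subtype.val (inv_mul_cancel g)

/-- The congruence subgroup of height `h` (of height one for `h = 0`). -/
def N (hT : Trunc F A t s) (h : ℕ) : Subgroup (SpecialLinearGroup (Fin k) A) where
  carrier := {g | (g : Matrix (Fin k) (Fin k) A) - 1 ∈ Ih t (max h 1)}
  one_mem' := by simpa using ih_zero (t := t) (k := k) (max h 1)
  mul_mem' := by
    intro g g' hg hg'
    change (g : Matrix (Fin k) (Fin k) A) * (g' : Matrix (Fin k) (Fin k) A) - 1 ∈ Ih t (max h 1)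
    have e : (g : Matrix (Fin k) (Fin k) A) * g' - 1
        = (1 + ((g : Matrix (Fin k) (Fin k) A) - 1)) * ((g' : Matrix (Fin k) (Fin k) A) - 1)
          + ((g : Matrix (Fin k) (Fin k) A) - 1) := by
      rw [add_sub_cancel, mul_sub, mul_one]; abel
    rw [e]
    exact ih_add (one_add_mul_mem hg' hg) hg
  inv_mem' := by
    intro g hg
    show ((g⁻¹ : SpecialLinearGroup (Fin k) A) : Matrix (Fin k) (Fin k) A) - 1 ∈ Ih t (max h 1)
    change (g : Matrix (Fin k) (Fin k) A) - 1 ∈ Ih t (max h 1) at hg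
    obtain ⟨y, hy, he⟩ := exists_inv hT (le_max_right h 1) hg
    rw [add_sub_cancel] at he
    have : ((g⁻¹ : SpecialLinearGroup (Fin k) A) : Matrix (Fin k) (Fin k) A) = 1 + y := by
      calc ((g⁻¹ : SpecialLinearGroup (Fin k) A) : Matrix (Fin k) (Fin k) A)
          = ((g⁻¹ : SpecialLinearGroup (Fin k) A) : Matrix (Fin k) (Fin k) A) * ((g : Matrix (Fin k) (Fin k) A) * (1 + y)) := by
            rw [he, mul_one]
        _ = 1 + y := by rw [← mul_assoc, val_inv_mul, one_mul]
    rwa [this, add_sub_cancel_left]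

variable {hT : Trunc F A t s}

theorem mem_N {h : ℕ} (hh : 1 ≤ h) {g : SpecialLinearGroup (Fin k) A} :
    g ∈ N hT h ↔ (g : Matrix (Fin k) (Fin k) A) - 1 ∈ Ih t h := by
  show _ ∈ Ih t (max h 1) ↔ _
  rw [max_eq_left hh]

theorem N_anti {h h' : ℕ} (hh : h ≤ h') : (N hT h' : Subgroup (SpecialLinearGroup (Fin k) A)) ≤ N hT h :=
  fun _ hg => ih_anti (max_le_max hh le_rfl) hg

theorem N_top {h : ℕ} (hh : s * k ≤ h) : (N hT h : Subgroup (SpecialLinearGroup (Fin k) A)) = ⊥ := by
  refine (Subgroup.eq_bot_iff_forall _).2 fun g hg => ?_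
  have := ih_top hT (le_trans hh (le_max_left h 1)) hg
  exact Subtype.ext (sub_eq_zero.1 this)

/-- Congruence of two group elements modulo height `h`. -/
theorem inv_mul_mem {h : ℕ} (hh : 1 ≤ h) {y g : SpecialLinearGroup (Fin k) A} (hy : y ∈ N hT 1)
    (he : (g : Matrix (Fin k) (Fin k) A) - y ∈ Ih t h) : y⁻¹ * g ∈ N hT h := by
  rw [mem_N hh]
  have e : ((y⁻¹ * g : SpecialLinearGroup (Fin k) A) : Matrix (Fin k) (Fin k) A) - 1
      = (1 + (((y⁻¹ : SpecialLinearGroup (Fin k) A) : Matrix (Fin k) (Fin k) A) - 1)) * ((g : Matrix (Fin k) (Fin k) A) - y) := by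
    rw [add_sub_cancel, mul_sub, val_inv_mul]
    rfl
  rw [e]
  exact one_add_mul_mem he ((mem_N le_rfl).1 (inv_mem hy))

open scoped commutatorElement in
/-- Commutators add heights, and to first order are matrix commutators. -/
theorem commutator_mem {a b : ℕ} (ha : 1 ≤ a) (hb : 1 ≤ b) {g g' : SpecialLinearGroup (Fin k) A}
    (hg : g ∈ N hT a) (hg' : g' ∈ N hT b) :
    ⁅g, g'⁆ ∈ N hT (a + b) ∧
      ((⁅g, g'⁆ : SpecialLinearGroup (Fin k) A) : Matrix (Fin k) (Fin k) A) - 1
          - (((g : Matrix (Fin k) (Fin k) A) - 1) * ((g' : Matrix (Fin k) (Fin k) A) - 1)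
            - ((g' : Matrix (Fin k) (Fin k) A) - 1) * ((g : Matrix (Fin k) (Fin k) A) - 1))
        ∈ Ih t (a + b + 1) := by
  set x := (g : Matrix (Fin k) (Fin k) A) - 1 with hx
  set y := (g' : Matrix (Fin k) (Fin k) A) - 1 with hy
  have hx' : x ∈ Ih t a := (mem_N ha).1 hg
  have hy' : y ∈ Ih t b := (mem_N hb).1 hg'
  set w : SpecialLinearGroup (Fin k) A := g⁻¹ * g'⁻¹ with hw
  have hw' : w ∈ N hT 1 := mul_mem (inv_mem (N_anti ha hg)) (inv_mem (N_anti hb hg'))
  set z := (w : Matrix (Fin k) (Fin k) A) - 1 with hz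
  have hz' : z ∈ Ih t 1 := (mem_N le_rfl).1 hw'
  have hxy : x * y - y * x ∈ Ih t (a + b) :=
    ih_sub (ih_mul hx' hy') (by rw [Nat.add_comm a b]; exact ih_mul hy' hx')
  have e : ((⁅g, g'⁆ : SpecialLinearGroup (Fin k) A) : Matrix (Fin k) (Fin k) A) - 1 = (x * y - y * x) * (1 + z) := by
    have h1 : ⁅g, g'⁆ = (g * g') * w := by rw [commutatorElement_def, hw]; group
    have h2 : (g' * g) * w = 1 := by rw [hw]; group
    have h3 := congrArg Subtype.val h2
    change (g' : Matrix (Fin k) (Fin k) A) * (g : Matrix (Fin k) (Fin k) A)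
      * (w : Matrix (Fin k) (Fin k) A) = 1 at h3
    rw [h1]
    change (g : Matrix (Fin k) (Fin k) A) * (g' : Matrix (Fin k) (Fin k) A)
      * (w : Matrix (Fin k) (Fin k) A) - 1 = _
    rw [show x * y - y * x = (g : Matrix (Fin k) (Fin k) A) * g' - g' * g by
        rw [hx, hy]; noncomm_ring,
      hz, add_sub_cancel, sub_mul, h3]
  refine ⟨(mem_N (by omega)).2 (by rw [e]; exact mul_one_add_mem hxy hz'), ?_⟩
  rw [e, mul_add, mul_one, add_sub_cancel_left]
  exact ih_mul hxy hz'

/-- A root element. -/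
def root (m l : Fin k) (hml : m ≠ l) (a : A) : SpecialLinearGroup (Fin k) A :=
  ⟨transvection m l a, det_transvection_of_ne m l hml a⟩

theorem root_sub_one (m l : Fin k) (hml : m ≠ l) (a : A) :
    (root m l hml a : Matrix (Fin k) (Fin k) A) - 1 = single m l a := by
  simp [root, transvection]

theorem single_mem {h : ℕ} {m l : Fin k} {a : A} (ha : t ^ ord h m l ∣ a) :
    single m l a ∈ Ih t h := fun i j => by
  by_cases h' : m = i ∧ l = j
  · obtain ⟨rfl, rfl⟩ := h'; simpa using ha
  · rw [single_apply_of_ne _ _ _ _ _ h']; exact dvd_zero _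

theorem root_mem {h : ℕ} (hh : 1 ≤ h) {m l : Fin k} {hml : m ≠ l} {a : A}
    (ha : t ^ ord h m l ∣ a) : root m l hml a ∈ N hT h := by
  rw [mem_N hh, root_sub_one]; exact single_mem ha

/-- The unique column and power at height `h` in row `m`. -/
def col (h : ℕ) (m : Fin k) : Fin k := ⟨(m.1 + h) % k, Nat.mod_lt _ m.pos⟩

theorem ord_col (h : ℕ) (m : Fin k) : ord h m (col h m) = (m.1 + h) / k := by
  have hk : 0 < k := m.pos
  apply le_antisymm
  · refine ord_le_iff.2 ?_
    have := Nat.div_add_mod' (m.1 + h) k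
    simp only [col]
    omega
  · by_contra hc
    have h1 := ord_le_iff.1 (show ord h m (col h m) ≤ (m.1 + h) / k - 1 by omega)
    have := Nat.div_add_mod' (m.1 + h) k
    have : ((m.1 + h) / k - 1) * k + k = (m.1 + h) / k * k := by
      rw [← Nat.succ_mul]; congr 1; omega
    simp only [col] at h1
    omega

theorem ord_succ_of_ne {h : ℕ} {m l : Fin k} (hl : l ≠ col h m) :
    ord (h + 1) m l = ord h m l := by
  refine le_antisymm (ord_le_iff.2 ?_) (ord_mono (Nat.le_succ h) m l)
  have h1 := le_ord_mul h m l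
  by_contra hc
  have he : m.1 + h = ord h m l * k + l.1 := by omega
  refine hl (Fin.ext ?_)
  simp only [col]
  rw [he, Nat.mul_add_mod_self_right, Nat.mod_eq_of_lt l.isLt]

theorem col_eq_self {h : ℕ} {m : Fin k} : col h m = m ↔ h % k = 0 := by
  simp only [col, Fin.ext_iff]
  constructor
  · intro e
    have h1 : (m.1 + h) % k = (m.1 + 0) % k := by rw [e, Nat.add_zero, Nat.mod_eq_of_lt m.isLt]
    simpa [Nat.ModEq] using (Nat.ModEq.add_left_cancel' m.1 h1)
  · intro e
    rw [Nat.add_mod, e, Nat.add_zero, Nat.mod_mod, Nat.mod_eq_of_lt m.isLt]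

/-- The height-`h` part of a matrix. -/
theorem slice_dec (hT : Trunc F A t s) {h : ℕ} {x : Matrix (Fin k) (Fin k) A} (hx : x ∈ Ih t h) :
    ∃ c : Fin k → F,
      x - ∑ m, single m (col h m) (algebraMap F A (c m) * t ^ ((m.1 + h) / k)) ∈ Ih t (h + 1) := by
  have : ∀ m : Fin k, ∃ c : F,
      t ^ ((m.1 + h) / k + 1) ∣ x m (col h m) - algebraMap F A c * t ^ ((m.1 + h) / k) := by
    intro m
    have h1 := hx m (col h m)
    rw [ord_col] at h1
    obtain ⟨a, ha⟩ := h1
    obtain ⟨c, a', rfl⟩ := hT.dec a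
    refine ⟨c, a', ?_⟩
    rw [ha, pow_succ]; ring
  choose c hc using this
  refine ⟨c, fun m l => ?_⟩
  rw [Matrix.sub_apply, Matrix.sum_apply, Finset.sum_eq_single m
    (fun n _ hn => single_apply_of_row_ne hn _ _ _) (by simp)]
  by_cases hl : l = col h m
  · subst hl
    rw [single_apply_same]
    refine (pow_dvd_pow t (ord_le_iff.2 ?_)).trans (hc m)
    have := Nat.div_add_mod' (m.1 + h) k
    rw [Nat.succ_mul]
    have hk := (col h m).isLt
    simp only [col] at hk ⊢
    omega
  · rw [single_apply_of_col_ne _ _ (Ne.symm hl), sub_zero, ord_succ_of_ne hl]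
    exact hx m l

theorem det_slice (hT : Trunc F A t s) {q : ℕ} (_hq : 1 ≤ q) {g : SpecialLinearGroup (Fin k) A}
    {n : Fin k} {c : F}
    (hg : (g : Matrix (Fin k) (Fin k) A) - 1 - single n n (algebraMap F A c * t ^ q)
      ∈ Ih t (q * k + 1)) : algebraMap F A c * t ^ q = 0 := by
  rcases Nat.lt_or_ge q s with hqs | hqs
  · refine (show c = 0 from hT.free c q hqs ?_) ▸ by simp
    set I := Ideal.span ({t ^ (q + 1)} : Set A) with hI
    set φ := Ideal.Quotient.mk I
    have hv : ∀ x : A, φ x = 0 ↔ t ^ (q + 1) ∣ x := fun x => by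
      rw [Ideal.Quotient.eq_zero_iff_mem, Ideal.mem_span_singleton]
    have hlow : ∀ m l : Fin k, l.1 ≤ m.1 →
        φ (((g : Matrix (Fin k) (Fin k) A) - 1 - single n n (algebraMap F A c * t ^ q)) m l) = 0 := by
      intro m l hle
      rw [hv]
      refine (pow_dvd_pow t ?_).trans (hg m l)
      by_contra hc
      have := ord_le_iff.1 (show ord (q * k + 1) m l ≤ q by omega)
      omega
    set M : Matrix (Fin k) (Fin k) (A ⧸ I) := φ.mapMatrix g.1 with hM
    have htri : M.BlockTriangular id := by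
      intro m l hlm
      have h := hlow m l (le_of_lt hlm)
      have hne : m ≠ l := ne_of_gt hlm
      rw [Matrix.sub_apply, Matrix.sub_apply, one_apply_ne hne,
        single_apply_of_ne _ _ _ _ _ (fun h' => hne (h'.1.symm.trans h'.2)),
        sub_zero, sub_zero] at h
      simpa [hM] using h
    have hdet : M.det = 1 := by
      rw [hM, ← RingHom.map_det, show Matrix.det (g : Matrix (Fin k) (Fin k) A) = 1 from g.2, map_one]
    rw [Matrix.det_of_isUpperTriangular htri] at hdet
    have hdiag : ∀ m, M m m = if m = n then 1 + φ (algebraMap F A c * t ^ q) else 1 := by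
      intro m
      have h := hlow m m le_rfl
      rw [Matrix.sub_apply, Matrix.sub_apply, one_apply_eq, map_sub, map_sub, map_one] at h
      by_cases hm : m = n
      · subst hm
        rw [single_apply_same] at h
        rw [if_pos rfl, hM, RingHom.mapMatrix_apply, Matrix.map_apply]
        linear_combination h
      · rw [single_apply_of_row_ne (Ne.symm hm), map_zero, sub_zero] at h
        rw [if_neg hm, hM, RingHom.mapMatrix_apply, Matrix.map_apply]
        linear_combination h
    simp only [hdiag, Finset.prod_ite_eq', Finset.mem_univ, if_true] at hdet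
    rw [← hv]
    linear_combination hdet
  · rw [pow_eq_zero_of_le hqs hT.nil, mul_zero]

/-- Realising prescribed first-order slices multiplicatively. -/
theorem exists_prod {h : ℕ} (hh : 1 ≤ h) (H : Subgroup (SpecialLinearGroup (Fin k) A))
    {ι : Type*} (u : Finset ι) (x : ι → Matrix (Fin k) (Fin k) A) (hx : ∀ i ∈ u, x i ∈ Ih t h)
    (hy : ∀ i ∈ u, ∃ y ∈ H, y ∈ N hT h ∧ (y : Matrix (Fin k) (Fin k) A) - 1 - x i ∈ Ih t (h + 1)) :
    ∃ y ∈ H, y ∈ N hT h ∧ (y : Matrix (Fin k) (Fin k) A) - 1 - ∑ i ∈ u, x i ∈ Ih t (h + 1) := by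
  classical
  induction u using Finset.induction_on with
  | empty => exact ⟨1, one_mem H, one_mem _, by simpa using ih_zero (t := t) (k := k) (h + 1)⟩
  | @insert i u hiu ih =>
    obtain ⟨y, hyH, hyN, hye⟩ := ih (fun j hj => hx j (Finset.mem_insert_of_mem hj))
      fun j hj => hy j (Finset.mem_insert_of_mem hj)
    obtain ⟨z, hzH, hzN, hze⟩ := hy i (Finset.mem_insert_self i u)
    refine ⟨z * y, mul_mem hzH hyH, mul_mem hzN hyN, ?_⟩
    rw [Finset.sum_insert hiu]
    change (z : Matrix (Fin k) (Fin k) A) * (y : Matrix (Fin k) (Fin k) A) - 1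
      - (x i + ∑ j ∈ u, x j) ∈ Ih t (h + 1)
    have e : (z : Matrix (Fin k) (Fin k) A) * y - 1 - (x i + ∑ j ∈ u, x j)
        = ((z : Matrix (Fin k) (Fin k) A) - 1) * ((y : Matrix (Fin k) (Fin k) A) - 1)
          + (((z : Matrix (Fin k) (Fin k) A) - 1 - x i)
            + ((y : Matrix (Fin k) (Fin k) A) - 1 - ∑ j ∈ u, x j)) := by noncomm_ring
    rw [e]
    exact ih_add (ih_anti (by omega) (ih_mul ((mem_N hh).1 hzN) ((mem_N hh).1 hyN)))
      (ih_add hze hye)

/-- Slices from height `h₀` on generate the congruence subgroup of height `h₀`. -/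
theorem le_of_slices (H : Subgroup (SpecialLinearGroup (Fin k) A)) {h₀ : ℕ} (h₀1 : 1 ≤ h₀)
    (hroot : ∀ h, h₀ ≤ h → h % k ≠ 0 → ∀ (m : Fin k) (c : F), ∃ y ∈ H, y ∈ N hT h ∧
      (y : Matrix (Fin k) (Fin k) A) - 1
          - single m (col h m) (algebraMap F A c * t ^ ((m.1 + h) / k)) ∈ Ih t (h + 1))
    (hdiag : ∀ q, h₀ ≤ q * k → ∃ n : Fin k, ∀ (m : Fin k), m ≠ n → ∀ c : F,
      ∃ y ∈ H, y ∈ N hT (q * k) ∧ (y : Matrix (Fin k) (Fin k) A) - 1
          - (single m m (algebraMap F A c * t ^ q) - single n n (algebraMap F A c * t ^ q))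
        ∈ Ih t (q * k + 1)) :
    N hT h₀ ≤ H := by
  suffices ∀ d h, h₀ ≤ h → s * k ≤ h + d →
      (N hT h : Subgroup (SpecialLinearGroup (Fin k) A)) ≤ H from
    this (s * k) h₀ le_rfl (by omega)
  intro d
  induction d with
  | zero => intro h _ hd; rw [N_top (by omega)]; exact bot_le
  | succ d ih =>
    intro h hh hd g hg
    have hh1 : 1 ≤ h := le_trans h₀1 hh
    have hgI := (mem_N hh1).1 hg
    obtain ⟨c, hc⟩ := slice_dec hT hgI
    suffices ∃ y ∈ H, y ∈ N hT h ∧
        (y : Matrix (Fin k) (Fin k) A) - 1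
          - ∑ m, single m (col h m) (algebraMap F A (c m) * t ^ ((m.1 + h) / k)) ∈ Ih t (h + 1) by
      obtain ⟨y, hyH, hyN, hye⟩ := this
      have hd' : (g : Matrix (Fin k) (Fin k) A) - y ∈ Ih t (h + 1) := by
        have := ih_sub hc hye
        convert this using 1
        abel
      have := ih (h + 1) (by omega) (by omega)
        (inv_mul_mem (by omega) (N_anti hh1 hyN) hd')
      simpa using mul_mem hyH this
    by_cases hmod : h % k = 0
    · obtain ⟨q, rfl⟩ := Nat.dvd_of_mod_eq_zero hmod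
      rw [Nat.mul_comm k q] at hh hh1 hg hgI hc ⊢
      obtain ⟨n, hn⟩ := hdiag q hh
      have hq : 1 ≤ q := by by_contra h0; simp [show q = 0 by omega] at hh1
      have hcol : ∀ m : Fin k, col (q * k) m = m := fun m => col_eq_self.2 (Nat.mul_mod_left q k)
      have hdiv : ∀ m : Fin k, (m.1 + q * k) / k = q := fun m => by
        rw [Nat.add_mul_div_right _ _ m.pos, Nat.div_eq_of_lt m.isLt, Nat.zero_add]
      simp only [hcol, hdiv] at hc ⊢
      have hsingle : ∀ (m : Fin k) (c : F),
          single m m (algebraMap F A c * t ^ q) ∈ Ih t (q * k) := fun m c =>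
        single_mem ((pow_dvd_pow t (ord_le_iff.2 (by omega))).trans (Dvd.intro_left _ rfl))
      obtain ⟨y, hyH, hyN, hye⟩ := exists_prod (hT := hT) hh1 H
        (Finset.univ.erase n)
        (fun m => single m m (algebraMap F A (c m) * t ^ q)
          - single n n (algebraMap F A (c m) * t ^ q))
        (fun m _ => ih_sub (hsingle m _) (hsingle n _))
        (fun m hm => hn m (Finset.ne_of_mem_erase hm) (c m))
      have hzero : algebraMap F A (∑ m, c m) * t ^ q = 0 := by
        refine det_slice (g := y⁻¹ * g) (n := n) hT hq ?_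
        have hdiff : (g : Matrix (Fin k) (Fin k) A) - y
            - single n n (algebraMap F A (∑ m, c m) * t ^ q) ∈ Ih t (q * k + 1) := by
          have h1 := ih_sub hc hye
          convert h1 using 1
          have hsplit' := (Finset.add_sum_erase Finset.univ
            (fun m => single m m (algebraMap F A (c m) * t ^ q)) (Finset.mem_univ n)).symm
          rw [hsplit', Finset.sum_sub_distrib]
          have : single n n (algebraMap F A (∑ m, c m) * t ^ q)
              = single n n (algebraMap F A (c n) * t ^ q)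
                + ∑ m ∈ Finset.univ.erase n, single n n (algebraMap F A (c m) * t ^ q) := by
            rw [← Finset.add_sum_erase _ _ (Finset.mem_univ n)]
            ext i j
            rw [Matrix.add_apply, Matrix.sum_apply]
            by_cases hij : n = i ∧ n = j
            · obtain ⟨rfl, rfl⟩ := hij
              simp only [single_apply_same, map_add, map_sum, add_mul, Finset.sum_mul]
            · simp [single_apply_of_ne _ _ _ _ _ hij]
          rw [this]
          abel
        have hy1 : ((y⁻¹ : SpecialLinearGroup (Fin k) A) : Matrix (Fin k) (Fin k) A) - 1 ∈ Ih t 1 :=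
          (mem_N le_rfl).1 (inv_mem (N_anti hh1 hyN))
        have e : ((y⁻¹ * g : SpecialLinearGroup (Fin k) A) : Matrix (Fin k) (Fin k) A) - 1
            - single n n (algebraMap F A (∑ m, c m) * t ^ q)
            = (1 + (((y⁻¹ : SpecialLinearGroup (Fin k) A) : Matrix (Fin k) (Fin k) A) - 1))
                * ((g : Matrix (Fin k) (Fin k) A) - y
                  - single n n (algebraMap F A (∑ m, c m) * t ^ q))
              + (((y⁻¹ : SpecialLinearGroup (Fin k) A) : Matrix (Fin k) (Fin k) A) - 1)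
                * single n n (algebraMap F A (∑ m, c m) * t ^ q) := by
          change ((y⁻¹ : SpecialLinearGroup (Fin k) A) : Matrix (Fin k) (Fin k) A)
              * (g : Matrix (Fin k) (Fin k) A) - 1 - _ = _
          rw [add_sub_cancel, mul_sub, mul_sub, sub_mul, one_mul, val_inv_mul]
          abel
        rw [e]
        refine ih_add (one_add_mul_mem hdiff hy1) ?_
        rw [Nat.add_comm]
        exact ih_mul hy1 (hsingle n _)
      refine ⟨y, hyH, hyN, ?_⟩
      convert hye using 1
      congr 1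
      rw [← Finset.add_sum_erase _ _ (Finset.mem_univ n), Finset.sum_sub_distrib]
      have hn0 : algebraMap F A (c n) * t ^ q
          = - ∑ m ∈ Finset.univ.erase n, algebraMap F A (c m) * t ^ q := by
        rw [← Finset.add_sum_erase _ _ (Finset.mem_univ n), map_add, add_mul, map_sum,
          Finset.sum_mul] at hzero
        exact eq_neg_of_add_eq_zero_left hzero
      rw [hn0]
      ext i j
      simp only [Matrix.add_apply, Matrix.sub_apply, Matrix.sum_apply]
      by_cases hij : n = i ∧ n = j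
      · obtain ⟨rfl, rfl⟩ := hij
        simp only [single_apply_same]
        ring
      · simp [single_apply_of_ne _ _ _ _ _ hij]
    · refine exists_prod hh1 H _ _ (fun m _ => ?_) (fun m _ => hroot h hh hmod m (c m))
      refine single_mem ?_
      rw [ord_col]
      exact Dvd.intro_left _ rfl

/-- A root slice as a commutator through an intermediate index. -/
theorem commutator_roots {a b : ℕ} (ha : 1 ≤ a) (hb : 1 ≤ b) {m n l : Fin k} (hmn : m ≠ n)
    (hnl : n ≠ l) {x y : A} (hx : t ^ ord a m n ∣ x) (hy : t ^ ord b n l ∣ y) :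
    open scoped commutatorElement in
    ⁅root m n hmn x, root n l hnl y⁆ ∈ N hT (a + b) ∧
      ((⁅root m n hmn x, root n l hnl y⁆ : SpecialLinearGroup (Fin k) A) : Matrix (Fin k) (Fin k) A) - 1
          - (single m l (x * y) - if l = m then single n n (x * y) else 0)
        ∈ Ih t (a + b + 1) := by
  obtain ⟨h1, h2⟩ := commutator_mem ha hb (root_mem (hT := hT) (hml := hmn) ha hx)
    (root_mem (hT := hT) (hml := hnl) hb hy)
  refine ⟨h1, ?_⟩
  rw [root_sub_one, root_sub_one, single_mul_single_same] at h2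
  by_cases hlm : l = m
  · subst hlm
    rw [single_mul_single_same, mul_comm y x] at h2
    rw [if_pos rfl]
    exact h2
  · rw [single_mul_single_of_ne _ _ _ _ hlm, sub_zero] at h2
    rw [if_neg hlm, sub_zero]
    exact h2

open scoped commutatorElement in
/-- A subgroup with all root elements through the indices of `D` contains the congruence
subgroup of height `k - |D| + 1`. -/
theorem le_of_roots_through (H : Subgroup (SpecialLinearGroup (Fin k) A)) (D : Finset (Fin k))
    (hD : D.Nonempty) (hk : 2 ≤ k)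
    (hH : ∀ (m l : Fin k) (hml : m ≠ l), m ∈ D ∨ l ∈ D → ∀ (j : ℕ) (c : F),
      m.1 + 1 ≤ j * k + l.1 → root m l hml (algebraMap F A c * t ^ j) ∈ H) :
    N hT (k - D.card + 1) ≤ H := by
  have hmem : ∀ (a : ℕ) (m l : Fin k) (hml : m ≠ l) (c : F), 1 ≤ a → col a m = l →
      m ∈ D ∨ l ∈ D → root m l hml (algebraMap F A c * t ^ ((m.1 + a) / k)) ∈ H := by
    intro a m l hml c ha hcol hd
    refine hH m l hml hd _ c ?_
    have := Nat.div_add_mod' (m.1 + a) k
    rw [← hcol]
    simp only [col]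
    omega
  have hpow : ∀ (a : ℕ) (m : Fin k) (c : F),
      t ^ ord a m (col a m) ∣ algebraMap F A c * t ^ ((m.1 + a) / k) := fun a m c => by
    rw [ord_col]; exact Dvd.intro_left _ rfl
  have hsplit : ∀ (a b : ℕ) (m : Fin k),
      col b (col a m) = col (a + b) m ∧
        (m.1 + a) / k + ((col a m).1 + b) / k = (m.1 + (a + b)) / k := by
    intro a b m
    refine ⟨Fin.ext (by simp only [col]; rw [Nat.mod_add_mod, Nat.add_assoc]), ?_⟩
    simp only [col]
    conv_rhs => rw [← Nat.add_assoc, ← Nat.div_add_mod' (m.1 + a) k, Nat.add_assoc,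
      Nat.mul_comm, Nat.mul_add_div m.pos]
  refine le_of_slices H (Nat.le_add_left 1 _) (fun h hh hmod m c => ?_) (fun q hq => ?_)
  · have hne : m ≠ col h m := fun e => hmod (col_eq_self.1 e.symm)
    by_cases hd : m ∈ D ∨ col h m ∈ D
    · exact ⟨_, hmem h m _ hne c (by omega) rfl hd, root_mem (by omega) (hpow h m c),
        by rw [root_sub_one, sub_self]; exact ih_zero _⟩
    push Not at hd
    obtain ⟨a, ha1, ha2, haD⟩ : ∃ a, 1 ≤ a ∧ a < h ∧ col a m ∈ D := by
      by_contra hc
      push Not at hc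
      have hsub : (Finset.range (min h k)).image (fun a => col a m) ⊆ Finset.univ \ D := by
        intro x hx
        obtain ⟨a, ha, rfl⟩ := Finset.mem_image.1 hx
        rw [Finset.mem_sdiff]
        refine ⟨Finset.mem_univ _, ?_⟩
        rcases Nat.eq_zero_or_pos a with rfl | h0
        · rw [show col 0 m = m from col_eq_self.2 (Nat.zero_mod k)]; exact hd.1
        · exact hc a h0 (by have := Finset.mem_range.1 ha; omega)
      have hinj : Set.InjOn (fun a => col a m) (Finset.range (min h k) : Set ℕ) := by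
        intro a ha b hb e
        simp only [Finset.coe_range, Set.mem_Iio] at ha hb
        simp only [col, Fin.mk.injEq] at e
        exact Nat.ModEq.eq_of_lt_of_lt (Nat.ModEq.add_left_cancel' m.1 e) (by omega) (by omega)
      have h1 := Finset.card_le_card hsub
      rw [Finset.card_image_of_injOn hinj, Finset.card_range, Finset.card_univ_sdiff,
        Fintype.card_fin] at h1
      have := D.card_pos.2 hD
      omega
    obtain ⟨hc2, hj⟩ := hsplit a (h - a) m
    rw [Nat.add_sub_cancel' ha2.le] at hc2 hj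
    have hmn : m ≠ col a m := fun e => hd.1 (e ▸ haD)
    have hnl : col a m ≠ col h m := fun e => hd.2 (e ▸ haD)
    set x := algebraMap F A c * t ^ ((m.1 + a) / k)
    set y := algebraMap F A 1 * t ^ (((col a m).1 + (h - a)) / k)
    have hx : root m (col a m) hmn x ∈ H := hmem a m _ hmn c ha1 rfl (Or.inr haD)
    have hy : root (col a m) (col h m) hnl y ∈ H :=
      hmem (h - a) _ _ hnl 1 (by omega) hc2 (Or.inl haD)
    obtain ⟨hN, he⟩ := commutator_roots (hT := hT) (x := x) (y := y) ha1 (show 1 ≤ h - a by omega) hmn hnl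
      (hpow a m c) (by rw [← hc2]; exact hpow (h - a) (col a m) 1)
    rw [Nat.add_sub_cancel' ha2.le] at hN he
    refine ⟨_, ?_, hN, ?_⟩
    · rw [commutatorElement_def]
      exact mul_mem (mul_mem (mul_mem hx hy) (inv_mem hx)) (inv_mem hy)
    rw [if_neg (Ne.symm hne), sub_zero] at he
    have hxy : x * y = algebraMap F A c * t ^ ((m.1 + h) / k) := by
      simp only [x, y, map_one, one_mul]; rw [mul_assoc, ← pow_add, hj]
    rw [hxy] at he
    exact he
  · obtain ⟨n, hn⟩ := hD
    refine ⟨n, fun m hmn c => ?_⟩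
    have hm := m.isLt
    have hn' := n.isLt
    set a : ℕ := (n.1 + k - m.1) % k with hadef
    have hcol : col a m = n := Fin.ext (by
      simp only [col, hadef]
      rw [Nat.add_mod_mod, show m.1 + (n.1 + k - m.1) = n.1 + k by omega, Nat.add_mod_right,
        Nat.mod_eq_of_lt n.isLt])
    have ha1 : 1 ≤ a := by
      by_contra h0
      refine hmn (Eq.trans (col_eq_self.2 ?_).symm hcol)
      rw [show a = 0 by omega, Nat.zero_mod]
    have hak : a < k := Nat.mod_lt _ (by omega)
    have hq1 : 1 ≤ q := by by_contra h0; simp [show q = 0 by omega] at hq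
    have haq : a < q * k := lt_of_lt_of_le hak (Nat.le_mul_of_pos_left k hq1)
    obtain ⟨hc2, hj⟩ := hsplit a (q * k - a) m
    rw [Nat.add_sub_cancel' haq.le] at hc2 hj
    rw [col_eq_self.2 (Nat.mul_mod_left q k), hcol] at hc2
    rw [hcol, Nat.add_mul_div_right _ _ m.pos, Nat.div_eq_of_lt hm, Nat.zero_add] at hj
    set x := algebraMap F A c * t ^ ((m.1 + a) / k)
    set y := algebraMap F A 1 * t ^ ((n.1 + (q * k - a)) / k)
    have hx : root m n hmn x ∈ H := hmem a m n hmn c ha1 hcol (Or.inr hn)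
    have hy : root n m hmn.symm y ∈ H :=
      hmem (q * k - a) n m hmn.symm 1 (by omega) hc2 (Or.inl hn)
    obtain ⟨hN, he⟩ := commutator_roots (hT := hT) (x := x) (y := y) ha1 (show 1 ≤ q * k - a by omega) hmn hmn.symm
      (by rw [← hcol]; exact hpow a m c) (by rw [← hc2]; exact hpow (q * k - a) n 1)
    rw [Nat.add_sub_cancel' haq.le] at hN he
    refine ⟨_, ?_, hN, ?_⟩
    · rw [commutatorElement_def]
      exact mul_mem (mul_mem (mul_mem hx hy) (inv_mem hx)) (inv_mem hy)
    rw [if_pos rfl] at he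
    have hxy : x * y = algebraMap F A c * t ^ q := by
      simp only [x, y, map_one, one_mul]; rw [mul_assoc, ← pow_add, hj]
    rw [hxy] at he
    exact he

/-- A subgroup containing all root elements of positive height contains the whole group. -/
theorem le_of_roots (H : Subgroup (SpecialLinearGroup (Fin k) A)) (hk : 2 ≤ k)
    (hH : ∀ (m l : Fin k) (hml : m ≠ l) (j : ℕ) (c : F),
      m.1 + 1 ≤ j * k + l.1 → root m l hml (algebraMap F A c * t ^ j) ∈ H) :
    N hT 1 ≤ H := by
  have h := le_of_roots_through (hT := hT) H Finset.univ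
    ⟨⟨0, by omega⟩, Finset.mem_univ _⟩ hk (fun m l hml _ => hH m l hml)
  simpa using h

/-- The group of height one has exponent a power of the characteristic. -/
theorem isPGroup_N (p : ℕ) [hp : Fact p.Prime] [CharP A p] (hk : 1 ≤ k) :
    IsPGroup p (N hT 1 : Subgroup (SpecialLinearGroup (Fin k) A)) := by
  rintro ⟨g, hg⟩
  refine ⟨s * k, Subtype.ext (Subtype.ext ?_)⟩
  change (g : Matrix (Fin k) (Fin k) A) ^ (p ^ (s * k)) = 1
  have : Nonempty (Fin k) := ⟨⟨0, hk⟩⟩
  have : CharP (Matrix (Fin k) (Fin k) A) p := inferInstance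
  have h1 : ((g : Matrix (Fin k) (Fin k) A) - 1) ^ (p ^ (s * k)) = 0 := by
    have hle : s * k ≤ p ^ (s * k) := (Nat.lt_pow_self hp.out.one_lt).le
    have hpos : 0 < p ^ (s * k) := pow_pos hp.out.pos _
    have := ih_pow ((mem_N le_rfl).1 hg) (p ^ (s * k) - 1)
    rw [show p ^ (s * k) - 1 + 1 = p ^ (s * k) by omega, Nat.mul_one] at this
    exact ih_top hT hle this
  rw [sub_pow_char_pow_of_commute (p := p) (s * k) (Commute.one_right (g : Matrix (Fin k) (Fin k) A)),
    one_pow] at h1
  exact sub_eq_zero.1 h1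

end Vale.Agent.P067.Slices
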