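import Mathlib

/-! # P067 — local to global for mod-two cochains

Sets of size `m` play the role of `(m - 1)`-faces. A cocycle of small weight which is minimal in
every link vanishes, provided the links expand and the pair graphs of all faces mix. -/

noncomputable section

open Finset
open scoped Classical

namespace Vale.Agent.P067.Local

variable {V : Type*} [Fintype V] [DecidableEq V]

/-- Being contained in a top face. -/
def IsFace (T : Finset (Finset V)) (σ : Finset V) : Prop := ∃ τ ∈ T, σ ⊆ τ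

/-- The number of top faces containing a set. -/
def deg (T : Finset (Finset V)) (σ : Finset V) : ℕ := (T.filter fun τ => σ ⊆ τ).card

/-- The faces of size `m`. -/
def mFaces (T : Finset (Finset V)) (m : ℕ) : Finset (Finset V) :=
  Finset.univ.filter fun σ => σ.card = m ∧ IsFace T σ

/-- The total degree of a family. -/
def wt (T : Finset (Finset V)) (B : Finset (Finset V)) : ℕ := ∑ φ ∈ B, deg T φ

/-- The support on the faces of size `m`. -/
def supp (T : Finset (Finset V)) (m : ℕ) (f : Finset V → ZMod 2) : Finset (Finset V) :=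
  (mFaces T m).filter fun φ => f φ ≠ 0

/-- The mod-two coboundary. -/
def dl (f : Finset V → ZMod 2) (τ : Finset V) : ZMod 2 := ∑ x ∈ τ, f (τ.erase x)

/-- Supported on the sets containing `σ`. -/
def SuppGe (σ : Finset V) (h : Finset V → ZMod 2) : Prop := ∀ φ, h φ ≠ 0 → σ ⊆ φ

/-- Coboundary expansion of all links, for sets of size `m`. -/
def LinkExp (T : Finset (Finset V)) (m : ℕ) (ε : ℝ) : Prop :=
  ∀ σ : Finset V, σ.Nonempty → σ.card ≤ m → IsFace T σ → ∀ g, SuppGe σ g →
    ∃ h, SuppGe σ h ∧ ε * (wt T (supp T m (g + dl h)) : ℝ) ≤ wt T (supp T (m + 1) (dl g))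

/-- The weight of the one-vertex extensions of `ρ` lying in `B`. -/
def vol (T : Finset (Finset V)) (B : Finset (Finset V)) (ρ : Finset V) : ℕ :=
  ∑ a ∈ Finset.univ.filter (fun a => a ∉ ρ ∧ insert a ρ ∈ B), deg T (insert a ρ)

/-- Mixing of the pair graph of every face of size less than `m`. -/
def Mixing (T : Finset (Finset V)) (m : ℕ) (κ lam : ℝ) : Prop :=
  ∀ ρ : Finset V, ρ.card < m → IsFace T ρ → ∀ A : Finset V, (∀ a ∈ A, a ∉ ρ) → ∀ μ : ℝ,
    (∑ a ∈ A, (deg T (insert a ρ) : ℝ) ≤ μ * deg T ρ) →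
    ∑ a ∈ A, ∑ b ∈ A.erase a, (deg T (insert a (insert b ρ)) : ℝ)
      ≤ κ * (μ + lam) * ∑ a ∈ A, (deg T (insert a ρ) : ℝ)

/-- Minimality in every link. -/
def LocallyMinimal (T : Finset (Finset V)) (m : ℕ) (F : Finset V → ZMod 2) : Prop :=
  ∀ σ : Finset V, σ.Nonempty → ∀ h, SuppGe σ h → wt T (supp T m F) ≤ wt T (supp T m (F + dl h))

/-- The fat sets, `j` levels below the support. -/
def lev (T : Finset (Finset V)) (m : ℕ) (F : Finset V → ZMod 2) (η : ℝ) : ℕ → Finset (Finset V)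
  | 0 => supp T m F
  | j + 1 => (mFaces T (m - (j + 1))).filter fun ρ =>
      η ^ 2 ^ (j + 1) * (deg T ρ : ℝ) ≤ vol T (lev T m F η j) ρ

/-- Being fat. -/
def Fat (T : Finset (Finset V)) (m : ℕ) (F : Finset V → ZMod 2) (η : ℝ) (φ : Finset V) : Prop :=
  φ.card ≤ m ∧ φ ∈ lev T m F η (m - φ.card)

/-- A terminal fat set below a set. -/
def term (P : Finset V → Prop) (φ : Finset V) : Finset V :=
  if h : ∃ x ∈ φ, P (φ.erase x) then term P (φ.erase h.choose) else φ
termination_by φ.card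
decreasing_by exact Finset.card_erase_lt_of_mem h.choose_spec.1

variable {T : Finset (Finset V)} {m : ℕ} {F : Finset V → ZMod 2} {η : ℝ}

omit [Fintype V] in
theorem term_subset (P : Finset V → Prop) (φ : Finset V) : term P φ ⊆ φ := by
  induction φ using Finset.strongInduction with
  | _ φ ih =>
    rw [term]
    split
    · next h =>
      exact (ih _ (Finset.erase_ssubset h.choose_spec.1)).trans (Finset.erase_subset _ _)
    · exact subset_rfl

omit [Fintype V] in
theorem term_nonempty {P : Finset V → Prop} (h0 : ¬P ∅) {φ : Finset V} (hφ : φ.Nonempty) :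
    (term P φ).Nonempty := by
  induction φ using Finset.strongInduction with
  | _ φ ih =>
    rw [term]
    split
    · next h =>
      refine ih _ (Finset.erase_ssubset h.choose_spec.1) ?_
      rw [Finset.nonempty_iff_ne_empty]
      intro he
      exact h0 (he ▸ h.choose_spec.2)
    · exact hφ

omit [Fintype V] in
/-- Confluence: if intersections of adjacent members of `P` inside `τ` are in `P`, every descent
inside `τ` ends at the same set. -/
theorem term_erase {P : Finset V → Prop} {τ : Finset V}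
    (hτ : ∀ c ⊆ τ, ∀ x ∈ c, ∀ y ∈ c, x ≠ y → P (c.erase x) → P (c.erase y) →
      P ((c.erase x).erase y)) :
    ∀ c ⊆ τ, ∀ x ∈ c, P (c.erase x) → term P (c.erase x) = term P c := by
  intro c
  induction c using Finset.strongInduction with
  | _ c ih =>
    intro hc x hx hPx
    have h : ∃ z ∈ c, P (c.erase z) := ⟨x, hx, hPx⟩
    rw [term.eq_def P c, dif_pos h]
    set y := h.choose
    obtain ⟨hy, hPy⟩ : y ∈ c ∧ P (c.erase y) := h.choose_spec
    by_cases hxy : x = y
    · rw [hxy]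
    have hd := hτ c hc x hx y hy hxy hPx hPy
    have hd' : P ((c.erase y).erase x) := by rwa [Finset.erase_right_comm]
    rw [← ih _ (Finset.erase_ssubset hx) ((Finset.erase_subset _ _).trans hc) y
        (Finset.mem_erase.2 ⟨Ne.symm hxy, hy⟩) hd,
      ← ih _ (Finset.erase_ssubset hy) ((Finset.erase_subset _ _).trans hc) x
        (Finset.mem_erase.2 ⟨hxy, hx⟩) hd', Finset.erase_right_comm]

omit [DecidableEq V] in
theorem mem_mFaces {σ : Finset V} {k : ℕ} : σ ∈ mFaces T k ↔ σ.card = k ∧ IsFace T σ := by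
  simp [mFaces]

omit [DecidableEq V] in
theorem supp_subset (f : Finset V → ZMod 2) : supp T m f ⊆ mFaces T m := Finset.filter_subset _ _

/-- Every one-vertex extension is counted `j + 1` times. -/
theorem sum_vol {B : Finset (Finset V)} {j : ℕ} (hB : B ⊆ mFaces T (j + 1)) :
    ∑ ρ ∈ mFaces T j, vol T B ρ = (j + 1) * wt T B := by
  have h1 : (j + 1) * wt T B = ∑ φ ∈ B, ∑ _x ∈ φ, deg T φ := by
    rw [wt, Finset.mul_sum]
    refine Finset.sum_congr rfl fun φ hφ => ?_
    rw [Finset.sum_const, (mem_mFaces.1 (hB hφ)).1, smul_eq_mul]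
  rw [h1, Finset.sum_sigma', show (∑ ρ ∈ mFaces T j, vol T B ρ)
    = ∑ ρ ∈ mFaces T j, ∑ a ∈ Finset.univ.filter (fun a => a ∉ ρ ∧ insert a ρ ∈ B),
        deg T (insert a ρ) from rfl, Finset.sum_sigma']
  refine Finset.sum_nbij' (fun p => ⟨insert p.2 p.1, p.2⟩) (fun q => ⟨q.1.erase q.2, q.2⟩)
    ?_ ?_ ?_ ?_ ?_
  · rintro ⟨ρ, a⟩ hp
    simp only [Finset.mem_sigma, Finset.mem_filter] at hp
    exact Finset.mem_sigma.2 ⟨hp.2.2.2, Finset.mem_insert_self _ _⟩
  · rintro ⟨φ, a⟩ hq
    obtain ⟨hφ, ha⟩ := Finset.mem_sigma.1 hq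
    obtain ⟨hc, τ, hτ, hsub⟩ := mem_mFaces.1 (hB hφ)
    refine Finset.mem_sigma.2 ⟨mem_mFaces.2 ⟨by rw [Finset.card_erase_of_mem ha, hc]; omega,
      τ, hτ, (Finset.erase_subset _ _).trans hsub⟩, ?_⟩
    simp only [Finset.mem_filter, Finset.mem_univ, true_and, Finset.insert_erase ha]
    exact ⟨Finset.notMem_erase _ _, hφ⟩
  · rintro ⟨ρ, a⟩ hp
    simp only [Finset.mem_sigma, Finset.mem_filter] at hp
    simp [Finset.erase_insert hp.2.2.1]
  · rintro ⟨φ, a⟩ hq
    simp [Finset.insert_erase (Finset.mem_sigma.1 hq).2]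
  · intro p _
    rfl

theorem lev_subset : ∀ j, lev T m F η j ⊆ mFaces T (m - j)
  | 0 => supp_subset F
  | _ + 1 => Finset.filter_subset _ _

/-- The fat families are small. -/
theorem wt_lev_le (hη : 0 ≤ η) :
    ∀ j ≤ m, η ^ (2 ^ (j + 1) - 2) * (wt T (lev T m F η j) : ℝ)
      ≤ (m : ℝ) ^ j * wt T (supp T m F)
  | 0, _ => by simp [lev]
  | j + 1, hj => by
    have ih := wt_lev_le hη j (by omega)
    have hsub : lev T m F η j ⊆ mFaces T (m - (j + 1) + 1) := by
      have := lev_subset (T := T) (m := m) (F := F) (η := η) j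
      rwa [show m - (j + 1) + 1 = m - j by omega]
    have h2 : η ^ 2 ^ (j + 1) * (wt T (lev T m F η (j + 1)) : ℝ)
        ≤ (m : ℝ) * wt T (lev T m F η j) := by
      calc η ^ 2 ^ (j + 1) * (wt T (lev T m F η (j + 1)) : ℝ)
          = ∑ ρ ∈ lev T m F η (j + 1), η ^ 2 ^ (j + 1) * (deg T ρ : ℝ) := by
            simp [wt, Finset.mul_sum]
        _ ≤ ∑ ρ ∈ lev T m F η (j + 1), (vol T (lev T m F η j) ρ : ℝ) :=
            Finset.sum_le_sum fun ρ hρ => (Finset.mem_filter.1 hρ).2
        _ ≤ ∑ ρ ∈ mFaces T (m - (j + 1)), (vol T (lev T m F η j) ρ : ℝ) :=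
            Finset.sum_le_sum_of_subset_of_nonneg (lev_subset (j + 1))
              fun _ _ _ => Nat.cast_nonneg _
        _ = ((m - (j + 1) + 1 : ℕ) : ℝ) * wt T (lev T m F η j) := by
            rw [← Nat.cast_sum, sum_vol hsub, Nat.cast_mul]
        _ ≤ (m : ℝ) * wt T (lev T m F η j) := by
            refine mul_le_mul_of_nonneg_right ?_ (Nat.cast_nonneg _)
            exact_mod_cast (show m - (j + 1) + 1 ≤ m by omega)
    have he : 2 ^ (j + 1 + 1) - 2 = (2 ^ (j + 1) - 2) + 2 ^ (j + 1) := by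
      have : 2 ≤ 2 ^ (j + 1) := Nat.le_self_pow (by omega) 2
      rw [pow_succ 2 (j + 1)]
      omega
    rw [he, pow_add, mul_assoc]
    calc η ^ (2 ^ (j + 1) - 2) * (η ^ 2 ^ (j + 1) * (wt T (lev T m F η (j + 1)) : ℝ))
        ≤ η ^ (2 ^ (j + 1) - 2) * ((m : ℝ) * wt T (lev T m F η j)) :=
          mul_le_mul_of_nonneg_left h2 (pow_nonneg hη _)
      _ = (m : ℝ) * (η ^ (2 ^ (j + 1) - 2) * wt T (lev T m F η j)) := by ring
      _ ≤ (m : ℝ) * ((m : ℝ) ^ j * wt T (supp T m F)) :=
          mul_le_mul_of_nonneg_left ih (Nat.cast_nonneg _)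
      _ = _ := by rw [pow_succ]; ring

/-- A small family has no fat empty set. -/
theorem not_fat_empty (hη : 0 < η) (hm : 1 ≤ m)
    (hsmall : (m : ℝ) ^ m * wt T (supp T m F) < η ^ 2 ^ (m + 1) * T.card) (hη1 : η ≤ 1) :
    ¬Fat T m F η ∅ := by
  intro h
  have hmem : (∅ : Finset V) ∈ lev T m F η m := by simpa [Fat] using h.2
  obtain ⟨j, rfl⟩ : ∃ j, m = j + 1 := ⟨m - 1, by omega⟩
  have hw := wt_lev_le (T := T) (F := F) hη.le (m := j + 1) (j + 1) le_rfl
  have hd : deg T (∅ : Finset V) = T.card := by simp [deg]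
  have hle : (T.card : ℝ) ≤ wt T (lev T (j + 1) F η (j + 1)) := by
    rw [← hd, wt]
    exact_mod_cast Finset.single_le_sum (f := fun φ => deg T φ) (fun _ _ => Nat.zero_le _) hmem
  have hp : η ^ 2 ^ (j + 1 + 1) ≤ η ^ (2 ^ (j + 1 + 1) - 2) :=
    pow_le_pow_of_le_one hη.le hη1 (Nat.sub_le _ _)
  have : η ^ 2 ^ (j + 1 + 1) * (T.card : ℝ)
      ≤ η ^ (2 ^ (j + 1 + 1) - 2) * wt T (lev T (j + 1) F η (j + 1)) :=
    mul_le_mul hp hle (Nat.cast_nonneg _) (pow_nonneg hη.le _)
  linarith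

/-- A top-level test set with two adjacent fat sets whose intersection is not fat. -/
def Bad (T : Finset (Finset V)) (m : ℕ) (F : Finset V → ZMod 2) (η : ℝ) (τ : Finset V) : Prop :=
  ∃ ρ : Finset V, ρ.card < m ∧ ¬Fat T m F η ρ ∧ ∃ a b : V, a ≠ b ∧ a ∉ ρ ∧ b ∉ ρ ∧
    insert a (insert b ρ) ⊆ τ ∧ Fat T m F η (insert a ρ) ∧ Fat T m F η (insert b ρ)

/-- Refining the degree count. -/
theorem sum_deg_le {K : ℕ} (hK : ∀ τ ∈ T, τ.card = K) (π : Finset V) :
    ∑ τ ∈ (mFaces T (m + 1)).filter (fun τ => π ⊆ τ), deg T τ ≤ 2 ^ K * deg T π := by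
  calc ∑ τ ∈ (mFaces T (m + 1)).filter (fun τ => π ⊆ τ), deg T τ
      = ∑ τ ∈ (mFaces T (m + 1)).filter (fun τ => π ⊆ τ),
          ∑ s ∈ T.filter (fun s => π ⊆ s), if τ ⊆ s then 1 else 0 := by
        refine Finset.sum_congr rfl fun τ hτ => ?_
        rw [← Finset.card_filter, Finset.filter_filter, deg]
        congr 1
        refine Finset.filter_congr fun s _ => ⟨fun h => ⟨(Finset.mem_filter.1 hτ).2.trans h, h⟩,
          fun h => h.2⟩
    _ = ∑ s ∈ T.filter (fun s => π ⊆ s),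
          ((((mFaces T (m + 1)).filter (fun τ => π ⊆ τ)).filter fun τ => τ ⊆ s).card) := by
        rw [Finset.sum_comm]
        refine Finset.sum_congr rfl fun s _ => ?_
        rw [← Finset.card_filter]
    _ ≤ ∑ _s ∈ T.filter (fun s => π ⊆ s), 2 ^ K := by
        refine Finset.sum_le_sum fun s hs => ?_
        refine le_of_le_of_eq (Finset.card_le_card (t := s.powerset) ?_) ?_
        · intro τ hτ
          exact Finset.mem_powerset.2 (Finset.mem_filter.1 hτ).2
        · rw [Finset.card_powerset, hK s (Finset.mem_filter.1 hs).1]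
    _ = 2 ^ K * deg T π := by simp [deg, mul_comm]

theorem Fat.isFace {φ : Finset V} (h : Fat T m F η φ) : IsFace T φ :=
  (mem_mFaces.1 (lev_subset _ h.2)).2

/-- The bad test sets have small weight. -/
theorem wt_bad_le {K : ℕ} (hK : ∀ τ ∈ T, τ.card = K) {κ lam : ℝ} (hκ : 0 ≤ κ) (hlam : 0 ≤ lam)
    (hmix : Mixing T m κ lam) (hη : 0 < η) (hη1 : η ≤ 1) :
    (wt T ((mFaces T (m + 1)).filter (Bad T m F η)) : ℝ)
      ≤ 2 ^ K * κ * m * m * (m : ℝ) ^ m * (η ^ 2 + lam / η ^ 2 ^ (m + 1))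
          * wt T (supp T m F) := by
  -- the pairs at one face
  set A : Finset V → Finset V := fun ρ =>
    Finset.univ.filter (fun a => a ∉ ρ ∧ Fat T m F η (insert a ρ)) with hA
  set P : Finset V → ℝ := fun ρ =>
    ∑ a ∈ A ρ, ∑ b ∈ (A ρ).erase a, (deg T (insert a (insert b ρ)) : ℝ) with hP
  set S : ℕ → Finset (Finset V) := fun s => (mFaces T s).filter (fun ρ => ¬Fat T m F η ρ) with hS
  have h1 : (wt T ((mFaces T (m + 1)).filter (Bad T m F η)) : ℝ)
      ≤ ∑ s ∈ Finset.range m, ∑ ρ ∈ S s, (2 : ℝ) ^ K * P ρ := by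
    have hN : ∀ τ ∈ (mFaces T (m + 1)).filter (Bad T m F η), (deg T τ : ℝ)
        ≤ ∑ s ∈ Finset.range m, ∑ ρ ∈ S s, ∑ a ∈ A ρ, ∑ b ∈ (A ρ).erase a,
            if insert a (insert b ρ) ⊆ τ then (deg T τ : ℝ) else 0 := by
      intro τ hτ
      obtain ⟨hτf, ρ, hρ, hnf, a, b, hab, ha, hb, hsub, hfa, hfb⟩ := Finset.mem_filter.1 hτ
      have hρS : ρ ∈ S ρ.card := by
        refine Finset.mem_filter.2 ⟨mem_mFaces.2 ⟨rfl, ?_⟩, hnf⟩
        obtain ⟨t, ht, hts⟩ := hfa.isFace
        exact ⟨t, ht, (Finset.subset_insert _ _).trans hts⟩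
      have haA : a ∈ A ρ := Finset.mem_filter.2 ⟨Finset.mem_univ _, ha, hfa⟩
      have hbA : b ∈ (A ρ).erase a :=
        Finset.mem_erase.2 ⟨Ne.symm hab, Finset.mem_filter.2 ⟨Finset.mem_univ _, hb, hfb⟩⟩
      refine le_trans ?_ (Finset.single_le_sum
        (fun s _ => Finset.sum_nonneg fun _ _ => Finset.sum_nonneg fun _ _ =>
          Finset.sum_nonneg fun _ _ => by positivity) (Finset.mem_range.2 hρ))
      refine le_trans ?_ (Finset.single_le_sum
        (fun _ _ => Finset.sum_nonneg fun _ _ => Finset.sum_nonneg fun _ _ => by positivity) hρS)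
      refine le_trans ?_ (Finset.single_le_sum
        (fun _ _ => Finset.sum_nonneg fun _ _ => by positivity) haA)
      refine le_trans ?_ (Finset.single_le_sum (fun _ _ => by positivity) hbA)
      rw [if_pos hsub]
    calc (wt T ((mFaces T (m + 1)).filter (Bad T m F η)) : ℝ)
        = ∑ τ ∈ (mFaces T (m + 1)).filter (Bad T m F η), (deg T τ : ℝ) := by simp [wt]
      _ ≤ _ := Finset.sum_le_sum hN
      _ ≤ ∑ τ ∈ mFaces T (m + 1), ∑ s ∈ Finset.range m, ∑ ρ ∈ S s, ∑ a ∈ A ρ,
            ∑ b ∈ (A ρ).erase a,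
              if insert a (insert b ρ) ⊆ τ then (deg T τ : ℝ) else 0 :=
          Finset.sum_le_sum_of_subset_of_nonneg (Finset.filter_subset _ _) fun _ _ _ =>
            Finset.sum_nonneg fun _ _ => Finset.sum_nonneg fun _ _ =>
              Finset.sum_nonneg fun _ _ => Finset.sum_nonneg fun _ _ => by positivity
      _ ≤ ∑ s ∈ Finset.range m, ∑ ρ ∈ S s, (2 : ℝ) ^ K * P ρ := by
          rw [Finset.sum_comm]
          refine Finset.sum_le_sum fun s _ => ?_
          rw [Finset.sum_comm]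
          refine Finset.sum_le_sum fun ρ _ => ?_
          rw [Finset.sum_comm]
          simp only [hP, Finset.mul_sum]
          refine Finset.sum_le_sum fun a _ => ?_
          rw [Finset.sum_comm]
          refine Finset.sum_le_sum fun b _ => ?_
          rw [← Finset.sum_filter]
          exact_mod_cast sum_deg_le hK _
  -- one face
  have h2 : ∀ s, s < m → ∀ ρ ∈ S s, P ρ
      ≤ κ * (η ^ 2 ^ (m - s) + lam) * vol T (lev T m F η (m - s - 1)) ρ := by
    intro s hs ρ hρ
    obtain ⟨hρf, hnf⟩ := Finset.mem_filter.1 hρ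
    obtain ⟨hc, hface⟩ := mem_mFaces.1 hρf
    have hAeq : ∑ a ∈ A ρ, (deg T (insert a ρ) : ℝ) = vol T (lev T m F η (m - s - 1)) ρ := by
      rw [vol, Nat.cast_sum]
      refine Finset.sum_congr (Finset.filter_congr fun a _ => and_congr_right fun ha => ?_)
        fun _ _ => rfl
      have hci : (insert a ρ).card = s + 1 := by rw [Finset.card_insert_of_notMem ha, hc]
      simp only [Fat, hci, show m - (s + 1) = m - s - 1 by omega]
      exact ⟨fun h => h.2, fun h => ⟨by omega, h⟩⟩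
    have hlt : (vol T (lev T m F η (m - s - 1)) ρ : ℝ) ≤ η ^ 2 ^ (m - s) * deg T ρ := by
      by_contra hcon
      push Not at hcon
      refine hnf ⟨by omega, ?_⟩
      have he : m - ρ.card = (m - s - 1) + 1 := by omega
      rw [he]
      refine Finset.mem_filter.2 ⟨mem_mFaces.2 ⟨by omega, hface⟩, ?_⟩
      rw [show m - s - 1 + 1 = m - s by omega]
      exact hcon.le
    rw [← hAeq] at hlt ⊢
    exact hmix ρ (by omega) hface _ (fun a ha => (Finset.mem_filter.1 ha).2.1) _ hlt
  -- one level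
  have h3 : ∀ s, s < m → ∑ ρ ∈ S s, (2 : ℝ) ^ K * P ρ
      ≤ 2 ^ K * κ * m * (m : ℝ) ^ m * (η ^ 2 + lam / η ^ 2 ^ (m + 1)) * wt T (supp T m F) := by
    intro s hs
    obtain ⟨j, hj, hjm⟩ : ∃ j, m - s = j + 1 ∧ j < m := ⟨m - s - 1, by omega, by omega⟩
    have hsub : lev T m F η j ⊆ mFaces T (s + 1) := by
      have := lev_subset (T := T) (m := m) (F := F) (η := η) j
      rwa [show m - j = s + 1 by omega] at this
    have hsum : ∑ ρ ∈ S s, (vol T (lev T m F η j) ρ : ℝ) ≤ m * wt T (lev T m F η j) := by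
      calc ∑ ρ ∈ S s, (vol T (lev T m F η j) ρ : ℝ)
          ≤ ∑ ρ ∈ mFaces T s, (vol T (lev T m F η j) ρ : ℝ) :=
            Finset.sum_le_sum_of_subset_of_nonneg (Finset.filter_subset _ _)
              fun _ _ _ => Nat.cast_nonneg _
        _ = ((s + 1 : ℕ) : ℝ) * wt T (lev T m F η j) := by
            rw [← Nat.cast_sum, sum_vol hsub, Nat.cast_mul]
        _ ≤ _ := mul_le_mul_of_nonneg_right (by exact_mod_cast hs) (Nat.cast_nonneg _)
    have hw := wt_lev_le (T := T) (F := F) hη.le (m := m) j hjm.le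
    have hjpos : 0 < η ^ (2 ^ (j + 1) - 2) := pow_pos hη _
    have hexp : (η ^ 2 ^ (j + 1) + lam) * (wt T (lev T m F η j) : ℝ)
        ≤ (η ^ 2 + lam / η ^ 2 ^ (m + 1)) * ((m : ℝ) ^ m * wt T (supp T m F)) := by
      have hw' : (wt T (lev T m F η j) : ℝ)
          ≤ (m : ℝ) ^ m * wt T (supp T m F) / η ^ (2 ^ (j + 1) - 2) := by
        rw [le_div_iff₀ hjpos, mul_comm]
        refine hw.trans (mul_le_mul_of_nonneg_right ?_ (Nat.cast_nonneg _))
        exact pow_le_pow_right₀ (by exact_mod_cast (show 1 ≤ m by omega)) hjm.le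
      refine (mul_le_mul_of_nonneg_left hw' (by positivity)).trans ?_
      rw [← mul_div_assoc, mul_div_right_comm]
      refine mul_le_mul_of_nonneg_right ?_ (by positivity)
      rw [add_div]
      refine add_le_add (le_of_eq ?_) ?_
      · rw [div_eq_iff hjpos.ne', ← pow_add]
        congr 1
        have : 2 ≤ 2 ^ (j + 1) := Nat.le_self_pow (by omega) 2
        omega
      · refine div_le_div_of_nonneg_left hlam (pow_pos hη _) (pow_le_pow_of_le_one hη.le hη1 ?_)
        exact (Nat.sub_le _ _).trans (Nat.pow_le_pow_right (by norm_num) (by omega))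
    calc ∑ ρ ∈ S s, (2 : ℝ) ^ K * P ρ
        ≤ ∑ ρ ∈ S s, (2 : ℝ) ^ K * (κ * (η ^ 2 ^ (j + 1) + lam) * vol T (lev T m F η j) ρ) := by
          refine Finset.sum_le_sum fun ρ hρ => mul_le_mul_of_nonneg_left ?_ (by positivity)
          have := h2 s hs ρ hρ
          rwa [show m - s - 1 = j by omega, hj] at this
      _ = 2 ^ K * κ * (η ^ 2 ^ (j + 1) + lam) * ∑ ρ ∈ S s, (vol T (lev T m F η j) ρ : ℝ) := by
          rw [Finset.mul_sum]
          exact Finset.sum_congr rfl fun ρ _ => by ring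
      _ ≤ 2 ^ K * κ * (η ^ 2 ^ (j + 1) + lam) * (m * wt T (lev T m F η j)) :=
          mul_le_mul_of_nonneg_left hsum (by positivity)
      _ = 2 ^ K * κ * m * ((η ^ 2 ^ (j + 1) + lam) * wt T (lev T m F η j)) := by ring
      _ ≤ 2 ^ K * κ * m * ((η ^ 2 + lam / η ^ 2 ^ (m + 1))
            * ((m : ℝ) ^ m * wt T (supp T m F))) :=
          mul_le_mul_of_nonneg_left hexp (by positivity)
      _ = _ := by ring
  refine h1.trans ((Finset.sum_le_sum fun s hs => h3 s (Finset.mem_range.1 hs)).trans_eq ?_)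
  rw [Finset.sum_const, Finset.card_range, nsmul_eq_mul]
  ring

/-- The key statement: small, locally minimal cocycles vanish. -/
theorem supp_eq_empty_of_small {K : ℕ} (hK : ∀ τ ∈ T, τ.card = K) (_hmK : m + 1 ≤ K)
    {ε κ lam : ℝ} (hκ : 0 ≤ κ) (hlam : 0 ≤ lam) (hexp : LinkExp T m ε)
    (hmix : Mixing T m κ lam) (hη : 0 < η) (hη1 : η ≤ 1) (hm : 1 ≤ m)
    (hsmallη : ((m : ℝ) + 1) * (2 ^ K * κ * m * m * (m : ℝ) ^ m
      * (η ^ 2 + lam / η ^ 2 ^ (m + 1))) < ε)
    (hmin : LocallyMinimal T m F) (hcoc : ∀ τ ∈ mFaces T (m + 1), dl F τ = 0)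
    (hsmall : (m : ℝ) ^ m * wt T (supp T m F) < η ^ 2 ^ (m + 1) * T.card) :
    supp T m F = ∅ := by
  set P : Finset V → Prop := Fat T m F η
  have h0 : ¬P ∅ := not_fat_empty hη hm hsmall hη1
  have hPsupp : ∀ φ, φ ∈ supp T m F → P φ := by
    intro φ hφ
    have hc := (mem_mFaces.1 (supp_subset F hφ)).1
    refine ⟨hc.le, ?_⟩
    rw [hc, Nat.sub_self]
    exact hφ
  set t : Finset V → Finset V := term P
  set g : Finset V → Finset V → ZMod 2 := fun σ φ =>
    if φ ∈ supp T m F ∧ t φ = σ then F φ else 0 with hg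
  set Bd := (mFaces T (m + 1)).filter (Bad T m F η)
  -- good test sets see nothing
  have hgood : ∀ σ, ∀ τ ∈ mFaces T (m + 1), τ ∉ Bd → dl (g σ) τ = 0 := by
    intro σ τ hτ hnb
    have hconf : ∀ c ⊆ τ, ∀ x ∈ c, ∀ y ∈ c, x ≠ y → P (c.erase x) → P (c.erase y) →
        P ((c.erase x).erase y) := by
      intro c hc x hx y hy hxy hPx hPy
      by_contra hcon
      have hyx : y ∈ c.erase x := Finset.mem_erase.2 ⟨Ne.symm hxy, hy⟩
      have hxy' : x ∈ c.erase y := Finset.mem_erase.2 ⟨hxy, hx⟩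
      have e1 : insert y ((c.erase x).erase y) = c.erase x := Finset.insert_erase hyx
      have e2 : insert x ((c.erase x).erase y) = c.erase y := by
        rw [Finset.erase_right_comm, Finset.insert_erase hxy']
      refine hnb (Finset.mem_filter.2 ⟨hτ, (c.erase x).erase y, ?_, hcon, y, x, Ne.symm hxy,
        Finset.notMem_erase _ _, by simp, ?_, by rw [e1]; exact hPx, by rw [e2]; exact hPy⟩)
      · calc ((c.erase x).erase y).card < (c.erase x).card := Finset.card_erase_lt_of_mem hyx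
          _ ≤ m := hPx.1
      · rw [e2]
        exact Finset.insert_subset (hc hy) ((Finset.erase_subset _ _).trans hc)
    have hsame : ∀ x ∈ τ, ∀ y ∈ τ, τ.erase x ∈ supp T m F → τ.erase y ∈ supp T m F →
        t (τ.erase x) = t (τ.erase y) := fun x hx y hy h1 h2 =>
      (term_erase hconf τ subset_rfl x hx (hPsupp _ h1)).trans
        (term_erase hconf τ subset_rfl y hy (hPsupp _ h2)).symm
    by_cases hex : ∃ x ∈ τ, τ.erase x ∈ supp T m F ∧ t (τ.erase x) = σ
    · obtain ⟨x, hx, hxs, hxt⟩ := hex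
      refine Eq.trans ?_ (hcoc τ hτ)
      refine Finset.sum_congr rfl fun z hz => ?_
      by_cases hzs : τ.erase z ∈ supp T m F
      · simp [hg, hzs, ← hxt, hsame z hz x hx hzs hxs]
      · simp only [hg, hzs, false_and, if_false]
        by_contra hne
        refine hzs (Finset.mem_filter.2 ⟨mem_mFaces.2 ⟨?_, ?_⟩, Ne.symm hne⟩)
        · rw [Finset.card_erase_of_mem hz, (mem_mFaces.1 hτ).1]; omega
        · obtain ⟨s, hs, hsub⟩ := (mem_mFaces.1 hτ).2
          exact ⟨s, hs, (Finset.erase_subset _ _).trans hsub⟩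
    · refine Finset.sum_eq_zero fun z hz => ?_
      simp only [hg]
      rw [if_neg]
      exact fun h => hex ⟨z, hz, h⟩
  -- each piece
  have hpiece : ∀ σ ∈ (supp T m F).image t, ε * (wt T (supp T m (g σ)) : ℝ)
      ≤ wt T (Bd.filter fun τ => dl (g σ) τ ≠ 0) := by
    intro σ hσ
    obtain ⟨φ, hφ, rfl⟩ := Finset.mem_image.1 hσ
    obtain ⟨hc, hf⟩ := mem_mFaces.1 (supp_subset F hφ)
    have hne : (t φ).Nonempty := term_nonempty h0 (Finset.card_pos.1 (by omega))
    have hsub : t φ ⊆ φ := term_subset P φ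
    have hsg : SuppGe (t φ) (g (t φ)) := by
      intro ψ hψ
      simp only [hg] at hψ
      split at hψ
      · next h => exact h.2 ▸ term_subset P ψ
      · exact absurd rfl hψ
    obtain ⟨h, hh, hle⟩ := hexp (t φ) hne ((Finset.card_le_card hsub).trans hc.le)
      (by obtain ⟨s, hs, hss⟩ := hf; exact ⟨s, hs, hsub.trans hss⟩) _ hsg
    have hmin' := hmin (t φ) hne h hh
    have hkey : wt T (supp T m (g (t φ))) ≤ wt T (supp T m (g (t φ) + dl h)) := by
      have hineq : wt T (supp T m (F + dl h)) + wt T (supp T m (g (t φ)))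
          ≤ wt T (supp T m (g (t φ) + dl h)) + wt T (supp T m F) := by
        simp only [wt, supp, Finset.sum_filter, ← Finset.sum_add_distrib]
        refine Finset.sum_le_sum fun ψ hψ => ?_
        simp only [Pi.add_apply, hg, supp, Finset.mem_filter, hψ, true_and]
        by_cases hF : F ψ = 0
        · simp [hF]
        · by_cases ht : t ψ = t φ
          · simp [hF, ht]
          · simp only [ne_eq, hF, not_false_eq_true, ht, and_false, if_false, zero_add,
              not_true_eq_false, if_true, add_zero]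
            split_ifs <;> omega
      omega
    have hbd : supp T (m + 1) (dl (g (t φ))) ⊆ Bd.filter fun τ => dl (g (t φ)) τ ≠ 0 := by
      intro τ hτ
      obtain ⟨hτf, hne'⟩ := Finset.mem_filter.1 hτ
      refine Finset.mem_filter.2 ⟨?_, hne'⟩
      by_contra hnb
      exact hne' (hgood _ τ hτf hnb)
    calc ε * (wt T (supp T m (g (t φ))) : ℝ) ≤ ε * (wt T (supp T m (g (t φ) + dl h)) : ℝ) := by
          refine mul_le_mul_of_nonneg_left (by exact_mod_cast hkey) ?_
          exact le_trans (by positivity) hsmallη.le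
      _ ≤ (wt T (supp T (m + 1) (dl (g (t φ)))) : ℝ) := hle
      _ ≤ _ := by exact_mod_cast Finset.sum_le_sum_of_subset hbd
  -- summation
  have hpart : wt T (supp T m F) = ∑ σ ∈ (supp T m F).image t, wt T (supp T m (g σ)) := by
    rw [wt, ← Finset.sum_fiberwise_of_maps_to (fun x hx => Finset.mem_image_of_mem t hx)]
    refine Finset.sum_congr rfl fun σ _ => Finset.sum_congr ?_ fun _ _ => rfl
    ext ψ
    simp only [hg, supp, Finset.mem_filter]
    constructor
    · rintro ⟨⟨h1, h2⟩, h3⟩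
      exact ⟨h1, by simp [h1, h2, h3]⟩
    · rintro ⟨h1, h2⟩
      split at h2
      · next h => exact ⟨⟨h1, h2⟩, h.2⟩
      · exact absurd rfl h2
  have hmult : ∑ σ ∈ (supp T m F).image t, (wt T (Bd.filter fun τ => dl (g σ) τ ≠ 0) : ℝ)
      ≤ ((m : ℝ) + 1) * wt T Bd := by
    simp only [wt, Nat.cast_sum, Finset.sum_filter, Finset.mul_sum]
    rw [Finset.sum_comm]
    refine Finset.sum_le_sum fun τ hτ => ?_
    rw [← Nat.cast_sum, ← Finset.sum_filter, Finset.sum_const, smul_eq_mul, Nat.cast_mul]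
    refine mul_le_mul_of_nonneg_right ?_ (Nat.cast_nonneg _)
    have hsub : ((supp T m F).image t).filter (fun σ => dl (g σ) τ ≠ 0)
        ⊆ τ.image (fun x => t (τ.erase x)) := by
      intro σ hσ
      obtain ⟨-, hne⟩ := Finset.mem_filter.1 hσ
      obtain ⟨x, hx, hx'⟩ := Finset.exists_ne_zero_of_sum_ne_zero hne
      simp only [hg] at hx'
      split at hx'
      · next h => exact Finset.mem_image.2 ⟨x, hx, h.2⟩
      · exact absurd rfl hx'
    have hb := (Finset.card_le_card hsub).trans Finset.card_image_le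
    rw [(mem_mFaces.1 (Finset.mem_filter.1 hτ).1).1] at hb
    exact_mod_cast hb
  by_contra hne
  have hpos : (0 : ℝ) < wt T (supp T m F) := by
    obtain ⟨φ, hφ⟩ := Finset.nonempty_iff_ne_empty.2 hne
    obtain ⟨s, hs, hsub⟩ := (mem_mFaces.1 (supp_subset F hφ)).2
    have h1 : 0 < deg T φ := Finset.card_pos.2 ⟨s, Finset.mem_filter.2 ⟨hs, hsub⟩⟩
    exact_mod_cast h1.trans_le
      (Finset.single_le_sum (f := fun ψ => deg T ψ) (fun _ _ => Nat.zero_le _) hφ)
  have hbad := wt_bad_le (F := F) hK hκ hlam hmix hη hη1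
  have hfin : ε * (wt T (supp T m F) : ℝ) ≤ ((m : ℝ) + 1) * wt T Bd := by
    rw [hpart, Nat.cast_sum, Finset.mul_sum]
    exact (Finset.sum_le_sum hpiece).trans hmult
  have := mul_lt_mul_of_pos_right hsmallη hpos
  nlinarith [mul_le_mul_of_nonneg_left hbad (show (0 : ℝ) ≤ (m : ℝ) + 1 by positivity)]

omit [Fintype V] in
theorem dl_add (f g : Finset V → ZMod 2) : dl (f + g) = dl f + dl g := by
  funext τ
  simp [dl, Finset.sum_add_distrib]

omit [Fintype V] in
/-- The coboundary squares to zero. -/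
theorem dl_dl (h : Finset V → ZMod 2) (τ : Finset V) : dl (dl h) τ = 0 := by
  simp only [dl, Finset.sum_sigma']
  refine Finset.sum_involution (fun p _ => ⟨p.2, p.1⟩) ?_ ?_ ?_ ?_
  · rintro ⟨x, y⟩ _
    show h ((τ.erase x).erase y) + h ((τ.erase y).erase x) = 0
    rw [Finset.erase_right_comm]
    exact CharTwo.add_self_eq_zero _
  · rintro ⟨x, y⟩ hp _ he
    simp only [Finset.mem_sigma, Finset.mem_erase] at hp
    simp only [Sigma.mk.injEq, heq_eq_eq] at he
    exact hp.2.1 he.1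
  · rintro ⟨x, y⟩ hp
    simp only [Finset.mem_sigma, Finset.mem_erase] at hp ⊢
    exact ⟨hp.2.2, Ne.symm hp.2.1, hp.1⟩
  · intros
    rfl

/-- The homotopy applied to a cochain. -/
def coneMap (σ : Finset V) (H : Finset V → Finset (Finset V)) (g : Finset V → ZMod 2)
    (χ : Finset V) : ZMod 2 :=
  if σ ⊆ χ then ∑ ψ ∈ H χ, g ψ else 0

theorem sum_deg_faces_le {K : ℕ} (hK : ∀ τ ∈ T, τ.card = K) (π : Finset V) (j : ℕ) :
    ∑ τ ∈ (mFaces T j).filter (fun τ => π ⊆ τ), deg T τ ≤ 2 ^ K * deg T π := by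
  cases j with
  | succ j => exact sum_deg_le hK π
  | zero =>
    have hsub : (mFaces T 0).filter (fun τ => π ⊆ τ) ⊆ {π} := by
      intro τ hτ
      obtain ⟨h1, h2⟩ := Finset.mem_filter.1 hτ
      have h0 := Finset.card_eq_zero.1 (mem_mFaces.1 h1).1
      subst h0
      simp [Finset.subset_empty.1 h2]
    refine (Finset.sum_le_sum_of_subset hsub).trans ?_
    rw [Finset.sum_singleton]
    exact Nat.le_mul_of_pos_left _ (pow_pos (by norm_num) K)

/-- A symmetrised bounded cone: a group transitive on the top faces containing `σ` and a linear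
contraction of bounded size give expansion of the link of `σ`, with constant `1 / (2 ^ K N)`. -/
theorem exists_cone_bound {K : ℕ} (hK : ∀ τ ∈ T, τ.card = K) (σ : Finset V)
    (Γ : Subgroup (Equiv.Perm V)) (hT : ∀ γ ∈ Γ, ∀ τ ∈ T, τ.image γ ∈ T)
    (hσ : ∀ γ ∈ Γ, σ.image γ = σ)
    (htrans : ∀ τ ∈ T, ∀ τ' ∈ T, σ ⊆ τ → σ ⊆ τ' → ∃ γ ∈ Γ, τ.image γ = τ')
    (H : Finset V → Finset (Finset V)) {N : ℕ} (hN : ∀ φ, (H φ).card ≤ N)
    (hHface : ∀ φ ∈ mFaces T m, σ ⊆ φ → ∀ ψ ∈ H φ, ψ ∈ mFaces T (m + 1) ∧ σ ⊆ ψ)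
    (hH : ∀ g, SuppGe σ g → ∀ φ ∈ mFaces T m, σ ⊆ φ →
      g φ + dl (coneMap σ H g) φ = ∑ ψ ∈ H φ, dl g ψ)
    (hface : IsFace T σ) (g : Finset V → ZMod 2) (hg : SuppGe σ g) :
    ∃ h, SuppGe σ h ∧
      wt T (supp T m (g + dl h)) ≤ 2 ^ K * N * wt T (supp T (m + 1) (dl g)) := by
  set G := (Finset.univ : Finset (Equiv.Perm V)).filter (fun γ => γ ∈ Γ) with hG
  have hGpos : 0 < G.card :=
    Finset.card_pos.2 ⟨1, Finset.mem_filter.2 ⟨Finset.mem_univ _, Γ.one_mem⟩⟩
  set Tσ := T.filter (fun τ => σ ⊆ τ) with hTσ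
  have hTσpos : 0 < Tσ.card := by
    obtain ⟨τ, h1, h2⟩ := hface
    exact Finset.card_pos.2 ⟨τ, Finset.mem_filter.2 ⟨h1, h2⟩⟩
  have himage : ∀ γ ∈ Γ, ∀ ψ, σ ⊆ ψ.image γ ↔ σ ⊆ ψ := by
    intro γ hγ ψ
    nth_rewrite 1 [← hσ γ hγ]
    exact Finset.image_subset_image_iff γ.injective
  have hfacemap : ∀ γ ∈ Γ, ∀ ψ j, ψ ∈ mFaces T j → ψ.image γ ∈ mFaces T j := by
    intro γ hγ ψ j hψ
    obtain ⟨hc, τ, hτ, hsub⟩ := mem_mFaces.1 hψ
    exact mem_mFaces.2 ⟨by rw [Finset.card_image_of_injective _ γ.injective, hc],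
      τ.image γ, hT γ hγ τ hτ, Finset.image_subset_image hsub⟩
  -- translated choices
  set ch : Equiv.Perm V → Finset V → ZMod 2 :=
    fun γ => coneMap σ H (fun ψ => g (ψ.image γ)) with hch
  set hh : Equiv.Perm V → Finset V → ZMod 2 := fun γ χ => ch γ (χ.image γ.symm) with hhh
  have hsupp : ∀ γ ∈ Γ, SuppGe σ (hh γ) := by
    intro γ hγ χ hχ
    have : σ ⊆ χ.image γ.symm := by
      by_contra hn
      exact hχ (by simp [hhh, hch, coneMap, hn])
    exact (himage γ.symm (Γ.inv_mem hγ) χ).1 this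
  set A := supp T (m + 1) (dl g) with hA
  set Φ := (mFaces T m).filter (fun φ => σ ⊆ φ) with hΦ
  have hback : ∀ (γ : Equiv.Perm V) (χ : Finset V), (χ.image γ.symm).image γ = χ := by
    intro γ χ
    simp [Finset.image_image]
  have hforth : ∀ (γ : Equiv.Perm V) (χ : Finset V), (χ.image γ).image γ.symm = χ := by
    intro γ χ
    simp [Finset.image_image]
  have herase : ∀ (γ : Equiv.Perm V) (χ : Finset V) (x : V),
      (χ.erase x).image γ = (χ.image γ).erase (γ x) :=
    fun γ χ x => Finset.image_erase γ.injective χ x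
  have hdl : ∀ (γ : Equiv.Perm V) (f : Finset V → ZMod 2) (χ : Finset V),
      dl (fun ψ => f (ψ.image γ)) χ = dl f (χ.image γ) := by
    intro γ f χ
    simp only [dl, herase]
    rw [Finset.sum_image (fun a _ b _ h => γ.injective h)]
  have hval : ∀ γ ∈ Γ, ∀ φ ∈ Φ,
      (g + dl (hh γ)) (φ.image γ) = ∑ ψ ∈ H φ, dl g (ψ.image γ) := by
    intro γ hγ φ hφ
    obtain ⟨hφf, hφσ⟩ := Finset.mem_filter.1 hφ
    have h1 := hH (fun ψ => g (ψ.image γ))
      (fun ψ hψ => (himage γ hγ ψ).1 (hg _ hψ)) φ hφf hφσ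
    have h2 : ch γ = fun ψ => hh γ (ψ.image γ) := by
      funext ψ
      simp [hhh, hforth]
    rw [show coneMap σ H (fun ψ => g (ψ.image γ)) = ch γ from rfl, h2, hdl] at h1
    simp only [hdl] at h1
    exact h1
  have hbound : ∀ γ ∈ G, wt T (supp T m (g + dl (hh γ)))
      ≤ ∑ φ ∈ Φ, deg T φ * ∑ ψ ∈ H φ, if ψ.image γ ∈ A then 1 else 0 := by
    intro γ hγG
    have hγ : γ ∈ Γ := (Finset.mem_filter.1 hγG).2
    have hdeg : ∀ φ, deg T (φ.image γ) = deg T φ := by
      intro φ
      refine Finset.card_nbij' (fun τ => τ.image γ.symm) (fun τ => τ.image γ) ?_ ?_ ?_ ?_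
      · intro τ hτ
        obtain ⟨h1, h2⟩ := Finset.mem_filter.1 hτ
        refine Finset.mem_filter.2 ⟨hT _ (Γ.inv_mem hγ) τ h1, ?_⟩
        rw [← hforth γ φ]
        exact Finset.image_subset_image h2
      · intro τ hτ
        obtain ⟨h1, h2⟩ := Finset.mem_filter.1 hτ
        exact Finset.mem_filter.2 ⟨hT _ hγ τ h1, Finset.image_subset_image h2⟩
      · intro τ _
        exact hback γ τ
      · intro τ _
        exact hforth γ τ
    calc wt T (supp T m (g + dl (hh γ)))
        ≤ ∑ χ ∈ (Φ.image fun φ => φ.image γ).filter (fun χ => (g + dl (hh γ)) χ ≠ 0),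
            deg T χ := by
          refine Finset.sum_le_sum_of_subset fun χ hχ => ?_
          obtain ⟨hχf, hne⟩ := Finset.mem_filter.1 hχ
          refine Finset.mem_filter.2 ⟨Finset.mem_image.2 ⟨χ.image γ.symm,
            Finset.mem_filter.2 ⟨hfacemap _ (Γ.inv_mem hγ) χ m hχf,
              (himage γ.symm (Γ.inv_mem hγ) χ).2 ?_⟩, hback γ χ⟩, hne⟩
          by_contra hn
          refine hne ?_
          have h0 : g χ = 0 := by_contra fun h => hn (hg χ h)
          have h1 : dl (hh γ) χ = 0 := Finset.sum_eq_zero fun x _ =>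
            by_contra fun h => hn ((hsupp γ hγ _ h).trans (Finset.erase_subset _ _))
          simp [h0, h1]
      _ = ∑ φ ∈ Φ, if (g + dl (hh γ)) (φ.image γ) ≠ 0 then deg T φ else 0 := by
          rw [Finset.sum_filter, Finset.sum_image
            (fun a _ b _ h => Finset.image_injective γ.injective h)]
          simp only [hdeg]
      _ ≤ ∑ φ ∈ Φ, deg T φ * ∑ ψ ∈ H φ, if ψ.image γ ∈ A then 1 else 0 := by
          refine Finset.sum_le_sum fun φ hφ => ?_
          split
          · next hne =>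
            rw [hval γ hγ φ hφ] at hne
            obtain ⟨ψ, hψ, hψ'⟩ := Finset.exists_ne_zero_of_sum_ne_zero hne
            obtain ⟨hφf, hφσ⟩ := Finset.mem_filter.1 hφ
            have hmem : ψ.image γ ∈ A :=
              Finset.mem_filter.2 ⟨hfacemap γ hγ ψ _ (hHface φ hφf hφσ ψ hψ).1, hψ'⟩
            refine le_trans (Nat.mul_one _).ge (Nat.mul_le_mul le_rfl ?_)
            exact le_trans (by rw [if_pos hmem]) (Finset.single_le_sum
              (f := fun ψ => if ψ.image γ ∈ A then 1 else 0) (fun _ _ => Nat.zero_le _) hψ)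
          · exact Nat.zero_le _
  -- averaging
  have havg : ∀ ψ ∈ mFaces T (m + 1), σ ⊆ ψ →
      Tσ.card * (∑ γ ∈ G, if ψ.image γ ∈ A then 1 else 0) ≤ G.card * wt T A := by
    intro ψ hψ hψσ
    obtain ⟨-, τ0, hτ0, hsub⟩ := mem_mFaces.1 hψ
    have hτ0σ : τ0 ∈ Tσ := Finset.mem_filter.2 ⟨hτ0, hψσ.trans hsub⟩
    set fib : Finset V → Finset (Equiv.Perm V) := fun τ => G.filter (fun γ => τ0.image γ = τ)
      with hfib
    have hmaps : ∀ γ ∈ G, τ0.image γ ∈ Tσ := fun γ hγ => by
      have hγ' := (Finset.mem_filter.1 hγ).2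
      exact Finset.mem_filter.2 ⟨hT γ hγ' τ0 hτ0, (himage γ hγ' τ0).2 (hψσ.trans hsub)⟩
    have hle : ∀ τ ∈ Tσ, ∀ τ' ∈ Tσ, (fib τ).card ≤ (fib τ').card := by
      intro τ hτ τ' hτ'
      obtain ⟨δ, hδ, he⟩ := htrans τ (Finset.mem_filter.1 hτ).1 τ' (Finset.mem_filter.1 hτ').1
        (Finset.mem_filter.1 hτ).2 (Finset.mem_filter.1 hτ').2
      refine Finset.card_le_card_of_injOn (fun γ => δ * γ) ?_ (fun a _ b _ h => mul_left_cancel h)
      intro γ hγ
      obtain ⟨h1, h2⟩ := Finset.mem_filter.1 hγ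
      refine Finset.mem_filter.2 ⟨Finset.mem_filter.2 ⟨Finset.mem_univ _,
        Γ.mul_mem hδ (Finset.mem_filter.1 h1).2⟩, ?_⟩
      rw [← he, ← h2, Finset.image_image, Equiv.Perm.coe_mul]
    have hfibeq : ∀ τ ∈ Tσ, Tσ.card * (fib τ).card = G.card := by
      intro τ hτ
      rw [Finset.card_eq_sum_card_fiberwise hmaps, ← smul_eq_mul, ← Finset.sum_const]
      exact Finset.sum_congr rfl fun τ' hτ' => le_antisymm (hle τ hτ τ' hτ') (hle τ' hτ' τ hτ)
    calc Tσ.card * (∑ γ ∈ G, if ψ.image γ ∈ A then 1 else 0)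
        ≤ Tσ.card * ∑ γ ∈ G, (A.filter (fun a => a ⊆ τ0.image γ)).card := by
          refine Nat.mul_le_mul le_rfl (Finset.sum_le_sum fun γ _ => ?_)
          split
          · next h => exact Finset.card_pos.2 ⟨ψ.image γ, Finset.mem_filter.2
              ⟨h, Finset.image_subset_image hsub⟩⟩
          · exact Nat.zero_le _
      _ = Tσ.card * ∑ τ ∈ Tσ, (fib τ).card * (A.filter (fun a => a ⊆ τ)).card := by
          rw [← Finset.sum_fiberwise_of_maps_to hmaps]
          congr 1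
          refine Finset.sum_congr rfl fun τ _ => ?_
          rw [Finset.sum_congr rfl (fun γ hγ => by rw [(Finset.mem_filter.1 hγ).2] :
            ∀ γ ∈ fib τ, (A.filter (fun a => a ⊆ τ0.image γ)).card
              = (A.filter (fun a => a ⊆ τ)).card), Finset.sum_const, smul_eq_mul]
      _ = G.card * ∑ τ ∈ Tσ, (A.filter (fun a => a ⊆ τ)).card := by
          rw [Finset.mul_sum, Finset.mul_sum]
          refine Finset.sum_congr rfl fun τ hτ => ?_
          rw [← mul_assoc, hfibeq τ hτ]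
      _ ≤ G.card * wt T A := by
          refine Nat.mul_le_mul le_rfl ?_
          refine (Finset.sum_le_sum_of_subset (Finset.filter_subset _ _)).trans_eq ?_
          simp only [Finset.card_filter, wt, deg]
          exact Finset.sum_comm
  have hsum : Tσ.card * ∑ γ ∈ G, wt T (supp T m (g + dl (hh γ)))
      ≤ Tσ.card * (G.card * (2 ^ K * N * wt T A)) := by
    calc Tσ.card * ∑ γ ∈ G, wt T (supp T m (g + dl (hh γ)))
        ≤ Tσ.card * ∑ γ ∈ G, ∑ φ ∈ Φ, deg T φ * ∑ ψ ∈ H φ, if ψ.image γ ∈ A then 1 else 0 :=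
          Nat.mul_le_mul le_rfl (Finset.sum_le_sum hbound)
      _ = ∑ φ ∈ Φ, deg T φ *
            ∑ ψ ∈ H φ, Tσ.card * ∑ γ ∈ G, if ψ.image γ ∈ A then 1 else 0 := by
          rw [Finset.sum_comm, Finset.mul_sum]
          refine Finset.sum_congr rfl fun φ _ => ?_
          rw [← Finset.mul_sum, Finset.sum_comm, mul_left_comm]
          congr 1
          rw [Finset.mul_sum]
      _ ≤ ∑ φ ∈ Φ, deg T φ * (N * (G.card * wt T A)) := by
          refine Finset.sum_le_sum fun φ hφ => Nat.mul_le_mul le_rfl ?_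
          obtain ⟨hφf, hφσ⟩ := Finset.mem_filter.1 hφ
          refine (Finset.sum_le_card_nsmul _ _ (G.card * wt T A) fun ψ hψ => ?_).trans
            (by rw [smul_eq_mul]; exact Nat.mul_le_mul (hN φ) le_rfl)
          exact havg ψ (hHface φ hφf hφσ ψ hψ).1 (hHface φ hφf hφσ ψ hψ).2
      _ ≤ (2 ^ K * Tσ.card) * (N * (G.card * wt T A)) := by
          rw [← Finset.sum_mul]
          exact Nat.mul_le_mul (sum_deg_faces_le hK σ m) le_rfl
      _ = _ := by ring
  have hsum' := Nat.le_of_mul_le_mul_left hsum hTσpos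
  obtain ⟨γ, hγ, hle⟩ := Finset.exists_le_of_sum_le (s := G) (Finset.card_pos.1 hGpos)
    (hsum'.trans_eq (by rw [Finset.sum_const, smul_eq_mul]))
  exact ⟨hh γ, hsupp γ (Finset.mem_filter.1 hγ).2, hle⟩

/-- Link expansion in the form used by the local-to-global step. -/
theorem linkExp_of_bound {C : ℝ} (hC : 0 < C)
    (h : ∀ σ : Finset V, σ.Nonempty → σ.card ≤ m → IsFace T σ → ∀ g, SuppGe σ g → ∃ h, SuppGe σ h ∧
      (wt T (supp T m (g + dl h)) : ℝ) ≤ C * wt T (supp T (m + 1) (dl g))) :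
    LinkExp T m C⁻¹ := by
  intro σ hσ hc hf g hg
  obtain ⟨h', h1, h2⟩ := h σ hσ hc hf g hg
  exact ⟨h', h1, by rw [inv_mul_le_iff₀ hC]; exact h2⟩

/-- Global expansion: exactness and the vanishing of small locally minimal cocycles. -/
theorem exists_coboundary_bound {K j Deg : ℕ} (hK : ∀ τ ∈ T, τ.card = K) (hjK : j + 2 ≤ K)
    {ε κ lam : ℝ} (hκ : 0 ≤ κ) (hlam : 0 ≤ lam) (hexp : LinkExp T (j + 1) ε)
    (hmix : Mixing T (j + 1) κ lam) (hη : 0 < η) (hη1 : η ≤ 1)
    (hsmallη : (((j + 1 : ℕ) : ℝ) + 1) * (2 ^ K * κ * (j + 1 : ℕ) * (j + 1 : ℕ)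
      * ((j + 1 : ℕ) : ℝ) ^ (j + 1) * (η ^ 2 + lam / η ^ 2 ^ (j + 1 + 1))) < ε)
    (hDeg : ∀ σ : Finset V, σ.Nonempty → deg T σ ≤ Deg)
    (hexact : ∀ f : Finset V → ZMod 2, (∀ τ ∈ mFaces T (j + 1), dl f τ = 0) →
      ∃ h, ∀ φ ∈ mFaces T j, f φ = dl h φ)
    {C : ℝ} (hC1 : (2 : ℝ) ^ K * Deg ≤ C)
    (hC2 : (2 : ℝ) ^ K * ((j + 1 : ℕ) : ℝ) ^ (j + 1) / η ^ 2 ^ (j + 1 + 1) ≤ C)
    (f : Finset V → ZMod 2) :
    ∃ h, (wt T (supp T j (f + dl h)) : ℝ) ≤ C * wt T (supp T (j + 1) (dl f)) := by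
  induction hw : wt T (supp T (j + 1) (dl f)) using Nat.strong_induction_on generalizing f with
  | _ w ih =>
    have hC0 : 0 ≤ C := le_trans (by positivity) hC1
    have hall : wt T (mFaces T j) ≤ 2 ^ K * T.card := by
      have h1 := sum_deg_faces_le (T := T) hK ∅ j
      simpa [wt, deg] using h1
    by_cases hbig : η ^ 2 ^ (j + 1 + 1) * (T.card : ℝ) ≤ ((j + 1 : ℕ) : ℝ) ^ (j + 1) * w
    · refine ⟨0, ?_⟩
      have h0 : f + dl (0 : Finset V → ZMod 2) = f := by
        funext φ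
        simp [dl]
      rw [h0]
      calc (wt T (supp T j f) : ℝ) ≤ ((2 ^ K * T.card : ℕ) : ℝ) := by
            exact_mod_cast (Finset.sum_le_sum_of_subset (supp_subset f)).trans hall
        _ = (2 : ℝ) ^ K / η ^ 2 ^ (j + 1 + 1) * (η ^ 2 ^ (j + 1 + 1) * T.card) := by
            push_cast
            field_simp
        _ ≤ (2 : ℝ) ^ K / η ^ 2 ^ (j + 1 + 1) * (((j + 1 : ℕ) : ℝ) ^ (j + 1) * w) :=
            mul_le_mul_of_nonneg_left hbig (by positivity)
        _ = (2 : ℝ) ^ K * ((j + 1 : ℕ) : ℝ) ^ (j + 1) / η ^ 2 ^ (j + 1 + 1) * w := by ring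
        _ ≤ C * w := mul_le_mul_of_nonneg_right hC2 (Nat.cast_nonneg _)
    · push Not at hbig
      by_cases hmin : LocallyMinimal T (j + 1) (dl f)
      · have hempty := supp_eq_empty_of_small hK hjK hκ hlam hexp hmix hη hη1 (Nat.le_add_left 1 j)
          hsmallη hmin (fun τ _ => dl_dl f τ) (by rw [hw]; exact hbig)
        obtain ⟨h, hh⟩ := hexact f fun τ hτ => by
          by_contra hne
          have : τ ∈ supp T (j + 1) (dl f) := Finset.mem_filter.2 ⟨hτ, hne⟩
          simp [hempty] at this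
        refine ⟨h, ?_⟩
        have h0 : supp T j (f + dl h) = ∅ := by
          refine Finset.filter_eq_empty_iff.2 fun φ hφ => ?_
          simp [hh φ hφ, CharTwo.add_self_eq_zero]
        rw [h0]
        simp only [wt, Finset.sum_empty, Nat.cast_zero]
        positivity
      · simp only [LocallyMinimal, not_forall, not_le] at hmin
        obtain ⟨σ, hσ, h, hsg, hlt⟩ := hmin
        set h' : Finset V → ZMod 2 := fun φ => if φ ∈ mFaces T j then h φ else 0 with hh'
        have hsupp : supp T (j + 1) (dl (f + h')) = supp T (j + 1) (dl f + dl h) := by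
          refine Finset.filter_congr fun φ hφ => ?_
          rw [dl_add]
          simp only [Pi.add_apply]
          have : dl h' φ = dl h φ := by
            refine Finset.sum_congr rfl fun x hx => ?_
            obtain ⟨hc, τ, hτ, hsub⟩ := mem_mFaces.1 hφ
            rw [hh']
            exact if_pos (mem_mFaces.2 ⟨by rw [Finset.card_erase_of_mem hx, hc]; omega,
              τ, hτ, (Finset.erase_subset _ _).trans hsub⟩)
          rw [this]
        rw [hw, ← hsupp] at hlt
        obtain ⟨h2, hle⟩ := ih _ hlt (f + h') rfl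
        refine ⟨h2, ?_⟩
        have hh'le : wt T (supp T j h') ≤ 2 ^ K * Deg := by
          refine (Finset.sum_le_sum_of_subset ?_).trans
            ((sum_deg_faces_le hK σ j).trans (Nat.mul_le_mul le_rfl (hDeg σ hσ)))
          intro φ hφ
          obtain ⟨hf, hne⟩ := Finset.mem_filter.1 hφ
          refine Finset.mem_filter.2 ⟨hf, hsg φ ?_⟩
          simpa [hh', hf] using hne
        have htri : wt T (supp T j (f + dl h2))
            ≤ wt T (supp T j (f + h' + dl h2)) + wt T (supp T j h') := by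
          simp only [wt, supp, Finset.sum_filter, ← Finset.sum_add_distrib]
          refine Finset.sum_le_sum fun φ _ => ?_
          simp only [Pi.add_apply]
          by_cases h1 : h' φ = 0
          · simp [h1]
          · simp only [ne_eq, h1, not_false_eq_true, if_true]
            split_ifs <;> omega
        calc (wt T (supp T j (f + dl h2)) : ℝ)
            ≤ (wt T (supp T j (f + h' + dl h2)) : ℝ) + (wt T (supp T j h') : ℝ) := by
              exact_mod_cast htri
          _ ≤ C * (wt T (supp T (j + 1) (dl (f + h'))) : ℝ) + C := by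
              refine add_le_add hle (le_trans ?_ hC1)
              exact_mod_cast hh'le
          _ = C * ((wt T (supp T (j + 1) (dl (f + h'))) + 1 : ℕ) : ℝ) := by push_cast; ring
          _ ≤ C * w := mul_le_mul_of_nonneg_left (by exact_mod_cast hlt) hC0

end Vale.Agent.P067.Local
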