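import Vale.Agent.P067.Defs

/-!
Small top cohomology gives a local decoder in every degree, and a local decoder in degree zero
is impossible.
-/

namespace Vale.Agent.P067

open Finset Module

variable {n : ℕ} {T : Finset (Finset (Fin n))} {d : ℕ}

/-- The support in degree `i`. -/
def supp (T : Finset (Finset (Fin n))) (i : ℕ) (f : Cochain n) : Finset (Finset (Fin n)) :=
  (faces T i).filter fun σ => f σ ≠ 0

/-- The indicator of one face. -/
def unit (σ : Finset (Fin n)) : Cochain n := Pi.single σ 1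

lemma mem_faces {i : ℕ} {σ : Finset (Fin n)} :
    σ ∈ faces T i ↔ σ.card = i + 1 ∧ ∃ τ ∈ T, σ ⊆ τ := by
  simp [faces]

lemma faces_sub {i j : ℕ} {σ ρ : Finset (Fin n)} (h : σ ∈ faces T i) (hρ : ρ ⊆ σ)
    (hc : ρ.card = j + 1) : ρ ∈ faces T j := by
  obtain ⟨_, τ, hτ, hs⟩ := mem_faces.1 h
  exact mem_faces.2 ⟨hc, τ, hτ, hρ.trans hs⟩

lemma faces_top (hT : ∀ τ ∈ T, τ.card = d + 1) : faces T d = T := by
  ext σ
  refine ⟨fun h => ?_, fun h => mem_faces.2 ⟨hT σ h, σ, h, Subset.rfl⟩⟩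
  obtain ⟨hc, τ, hτ, hs⟩ := mem_faces.1 h
  rwa [Finset.eq_of_subset_of_card_le hs (by rw [hT τ hτ, hc])]

lemma cob_off {i : ℕ} {f : Cochain n} {τ : Finset (Fin n)} (h : τ ∉ faces T (i + 1)) :
    cob T i f τ = 0 := by
  simp [cob, h]

lemma cob_cob (i : ℕ) (f : Cochain n) : cob T (i + 1) (cob T i f) = 0 := by
  funext τ
  by_cases hτ : τ ∈ faces T (i + 1 + 1)
  swap
  · exact cob_off hτ
  have hc : τ.card = i + 3 := (mem_faces.1 hτ).1
  have e : ∀ σ ∈ τ.powersetCard (i + 1 + 1),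
      cob T i f σ = ∑ ρ ∈ σ.powersetCard (i + 1), f ρ := by
    intro σ hσ
    rw [Finset.mem_powersetCard] at hσ
    have : σ ∈ faces T (i + 1) := faces_sub hτ hσ.1 hσ.2
    simp [cob, this]
  have hval : cob T (i + 1) (cob T i f) τ =
      ∑ σ ∈ τ.powersetCard (i + 1 + 1), ∑ ρ ∈ σ.powersetCard (i + 1), f ρ := by
    rw [← Finset.sum_congr rfl e]; simp [cob, hτ]
  rw [hval, Finset.sum_comm' (t' := τ.powersetCard (i + 1))
    (s' := fun ρ => (τ \ ρ).image fun v => insert v ρ)]
  · refine Finset.sum_eq_zero fun ρ hρ => ?_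
    rw [Finset.mem_powersetCard] at hρ
    rw [Finset.sum_const, Finset.card_image_of_injOn, Finset.card_sdiff_of_subset hρ.1, hc, hρ.2]
    · have : i + 3 - (i + 1) = 2 := by omega
      rw [this, two_nsmul]
      exact CharTwo.add_self_eq_zero _
    · intro v hv w hw e
      simp only [Finset.coe_sdiff, Set.mem_sdiff, Finset.mem_coe] at hv hw
      have : v ∈ insert w ρ := by
        rw [← show insert v ρ = insert w ρ from e]; exact Finset.mem_insert_self v ρ
      rcases Finset.mem_insert.1 this with h | h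
      · exact h
      · exact absurd h hv.2
  · intro σ ρ
    simp only [Finset.mem_powersetCard, Finset.mem_image, Finset.mem_sdiff]
    constructor
    · rintro ⟨⟨hσ, hσc⟩, hρ, hρc⟩
      obtain ⟨v, hv⟩ := Finset.card_eq_one.1
        (show (σ \ ρ).card = 1 by rw [Finset.card_sdiff_of_subset hρ]; omega)
      have hv' : v ∈ σ \ ρ := by simp [hv]
      refine ⟨⟨v, ⟨hσ (Finset.mem_sdiff.1 hv').1, (Finset.mem_sdiff.1 hv').2⟩, ?_⟩,
        hρ.trans hσ, hρc⟩
      rw [← Finset.sdiff_union_of_subset hρ, hv, Finset.singleton_union]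
    · rintro ⟨⟨v, ⟨hv, hvρ⟩, rfl⟩, hρ, hρc⟩
      exact ⟨⟨Finset.insert_subset hv hρ, by rw [Finset.card_insert_of_notMem hvρ, hρc]⟩,
        Finset.subset_insert _ _, hρc⟩

lemma cob_bdry {i : ℕ} {a : Cochain n} (ha : a ∈ bdry T i) : cob T i a = 0 := by
  cases i with
  | zero =>
    obtain ⟨c, rfl⟩ := Submodule.mem_span_singleton.1 ha
    rw [map_smul]
    convert smul_zero c
    funext τ
    by_cases hτ : τ ∈ faces T 1
    · have h2 : τ.card = 2 := (mem_faces.1 hτ).1
      simp [cob, hτ, h2]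
      decide
    · exact cob_off hτ
  | succ i =>
    obtain ⟨x, rfl⟩ := LinearMap.mem_range.1 ha
    exact cob_cob i x

lemma supp_sub_le (i : ℕ) (f g : Cochain n) :
    (supp T i (f - g)).card ≤ (supp T i f).card + (supp T i g).card := by
  refine (Finset.card_le_card ?_).trans (Finset.card_union_le _ _)
  intro σ
  simp only [supp, Finset.mem_filter, Finset.mem_union, Pi.sub_apply]
  rintro ⟨hσ, h⟩
  by_cases hf : f σ = 0
  · exact Or.inr ⟨hσ, fun hg => h (by rw [hf, hg, sub_zero])⟩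
  · exact Or.inl ⟨hσ, hf⟩

lemma supp_congr {i : ℕ} {f g : Cochain n} (h : ∀ σ ∈ faces T i, f σ = g σ) :
    supp T i f = supp T i g :=
  Finset.filter_congr fun σ hσ => by rw [h σ hσ]

lemma eq_of_supp_sub {i : ℕ} {f g : Cochain n} (h : (supp T i (f - g)).card = 0) :
    ∀ σ ∈ faces T i, f σ = g σ := by
  intro σ hσ
  by_contra hne
  have : σ ∈ supp T i (f - g) := by simp [supp, hσ, sub_eq_zero, hne]
  rw [Finset.card_eq_zero.1 h] at this
  exact Finset.notMem_empty _ this

lemma supp_unit_le (i : ℕ) (σ : Finset (Fin n)) : (supp T i (unit σ)).card ≤ 1 := by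
  refine (Finset.card_le_card (t := {σ}) ?_).trans_eq (Finset.card_singleton σ)
  intro ρ hρ
  rw [Finset.mem_singleton]
  by_contra hne
  exact (Finset.mem_filter.1 hρ).2 (Pi.single_eq_of_ne hne 1)

/-- The linear map with prescribed values on the indicators of the faces in degree `i`. -/
def ofColumns (T : Finset (Finset (Fin n))) (i : ℕ) (g : Finset (Fin n) → Cochain n) :
    Cochain n →ₗ[ZMod 2] Cochain n :=
  ∑ σ ∈ faces T i, (LinearMap.proj σ).smulRight (g σ)

lemma ofColumns_apply (i : ℕ) (g : Finset (Fin n) → Cochain n) (f : Cochain n) :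
    ofColumns T i g f = ∑ σ ∈ faces T i, f σ • g σ := by
  simp [ofColumns]

lemma ofColumns_supp (i j N : ℕ) (g : Finset (Fin n) → Cochain n)
    (hg : ∀ σ ∈ faces T i, (supp T j (g σ)).card ≤ N) (f : Cochain n) :
    (supp T j (ofColumns T i g f)).card ≤ N * (supp T i f).card := by
  have hs : supp T j (ofColumns T i g f) ⊆ (supp T i f).biUnion fun σ => supp T j (g σ) := by
    intro ρ hρ
    simp only [supp, Finset.mem_filter] at hρ
    obtain ⟨hρF, hne⟩ := hρ
    rw [ofColumns_apply, Finset.sum_apply] at hne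
    obtain ⟨σ, hσ, hσne⟩ := Finset.exists_ne_zero_of_sum_ne_zero hne
    rw [Pi.smul_apply, smul_eq_mul] at hσne
    exact Finset.mem_biUnion.2 ⟨σ, by simp [supp, hσ, left_ne_zero_of_mul hσne],
      by simp [supp, hρF, right_ne_zero_of_mul hσne]⟩
  refine (Finset.card_le_card hs).trans ((Finset.card_biUnion_le_card_mul _ _ N fun σ hσ =>
    hg σ (Finset.mem_filter.1 hσ).1).trans_eq (Nat.mul_comm _ _))

lemma sum_units {i : ℕ} {f : Cochain n} (hf : ∀ σ, σ ∉ faces T i → f σ = 0) :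
    ∑ σ ∈ faces T i, f σ • unit σ = f := by
  funext ρ
  rw [Finset.sum_apply]
  by_cases hρ : ρ ∈ faces T i
  · rw [Finset.sum_eq_single ρ]
    · simp [unit]
    · intro σ _ hne; simp [unit, Ne.symm hne]
    · exact fun h => absurd hρ h
  · rw [hf ρ hρ]
    refine Finset.sum_eq_zero fun σ hσ => ?_
    have : ρ ≠ σ := fun e => hρ (e ▸ hσ)
    simp [unit, this]

section counts

variable (hT : ∀ τ ∈ T, τ.card = d + 1) (D : ℕ)
  (hD : ∀ v, (T.filter fun τ => v ∈ τ).card ≤ D)

include hD in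
lemma up_le {i : ℕ} {σ : Finset (Fin n)} (hσ : σ.card = i + 1) :
    (T.filter fun τ => σ ⊆ τ).card ≤ D := by
  obtain ⟨v, hv⟩ := Finset.card_pos.1 (show 0 < σ.card by omega)
  refine (Finset.card_le_card fun τ hτ => ?_).trans (hD v)
  simp only [Finset.mem_filter] at hτ ⊢
  exact ⟨hτ.1, hτ.2 hv⟩

include hT hD in
lemma supp_cob_unit {i : ℕ} {σ : Finset (Fin n)} (hσ : σ.card = i + 1) :
    (supp T (i + 1) (cob T i (unit σ))).card ≤ D * 2 ^ (d + 1) := by
  have hs : supp T (i + 1) (cob T i (unit σ)) ⊆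
      (T.filter fun τ => σ ⊆ τ).biUnion fun τ => τ.powerset := by
    intro ρ hρ
    simp only [supp, Finset.mem_filter] at hρ
    obtain ⟨hρF, hne⟩ := hρ
    have hne' : ∑ x ∈ ρ.powersetCard (i + 1), unit σ x ≠ 0 := by
      simpa [cob, hρF] using hne
    obtain ⟨x, hx, hx0⟩ := Finset.exists_ne_zero_of_sum_ne_zero hne'
    have hxσ : x = σ := by
      by_contra h; exact hx0 (by simp [unit, h])
    subst hxσ
    obtain ⟨_, τ, hτ, hsub⟩ := mem_faces.1 hρF
    exact Finset.mem_biUnion.2 ⟨τ,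
      Finset.mem_filter.2 ⟨hτ, (Finset.mem_powersetCard.1 hx).1.trans hsub⟩,
      Finset.mem_powerset.2 hsub⟩
  refine (Finset.card_le_card hs).trans ((Finset.card_biUnion_le_card_mul _ _ (2 ^ (d + 1))
    fun τ hτ => ?_).trans (Nat.mul_le_mul_right _ (up_le D hD hσ)))
  rw [Finset.card_powerset, hT τ (Finset.mem_filter.1 hτ).1]

include hD in
lemma expand {ε : ℝ} (hε : 0 < ε) (hX : IsExpander T d ε) {i : ℕ} (hi : i < d) (f : Cochain n) :
    ∃ a ∈ bdry T i, (supp T i (f - a)).card ≤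
      ⌈(D : ℝ) * 2 ^ (d + 1) / ε⌉₊ * (supp T (i + 1) (cob T i f)).card := by
  obtain ⟨a, ha, hle⟩ := hX i hi f
  refine ⟨a, ha, ?_⟩
  set A := (supp T i (f - a)).card with hA
  set B := (supp T (i + 1) (cob T i f)).card with hB
  rcases T.eq_empty_or_nonempty with hT0 | hT0
  · have : A = 0 := by simp [hA, supp, faces, hT0]
    omega
  have hm : (0:ℝ) < (T.card : ℝ) := by exact_mod_cast hT0.card_pos
  have hc : ∀ k, k ≤ d → (1:ℝ) ≤ ((d + 1).choose (k + 1) : ℝ) := fun k hk => by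
    exact_mod_cast Nat.choose_pos (show k + 1 ≤ d + 1 by omega)
  have hu : ((d + 1).choose (i + 1) : ℝ) ≤ 2 ^ (d + 1) := by
    exact_mod_cast Nat.choose_le_two_pow (d + 1) (i + 1)
  have hlow : (A : ℝ) / (((d + 1).choose (i + 1) : ℝ) * T.card) ≤ cNorm T d i (f - a) := by
    rw [cNorm, show (A : ℝ) / _ = ∑ σ ∈ supp T i (f - a),
      (1:ℝ) / (((d + 1).choose (i + 1) : ℝ) * T.card) by simp [hA, div_eq_mul_inv]]
    refine Finset.sum_le_sum fun σ hσ => ?_
    obtain ⟨_, τ, hτ, hs⟩ := mem_faces.1 (Finset.mem_filter.1 hσ).1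
    refine div_le_div_of_nonneg_right ?_ (by positivity)
    exact_mod_cast Finset.card_pos.2 ⟨τ, Finset.mem_filter.2 ⟨hτ, hs⟩⟩
  have hup : cNorm T d (i + 1) (cob T i f) ≤ (B : ℝ) * D / T.card := by
    rw [show (B : ℝ) * D / T.card = ∑ σ ∈ supp T (i + 1) (cob T i f), (D:ℝ) / T.card by
      rw [Finset.sum_const, nsmul_eq_mul, mul_div_assoc]]
    refine Finset.sum_le_sum fun σ hσ => ?_
    have hσc := (mem_faces.1 (Finset.mem_filter.1 hσ).1).1
    calc weight T d (i + 1) σ ≤ (D:ℝ) / (((d + 1).choose (i + 1 + 1) : ℝ) * T.card) :=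
          div_le_div_of_nonneg_right (by exact_mod_cast up_le D hD hσc) (by positivity)
      _ ≤ (D:ℝ) / T.card := div_le_div_of_nonneg_left (by positivity) hm
          (le_mul_of_one_le_left hm.le (hc (i + 1) hi))
  have hci := hc i hi.le
  have h1 : ε * ((A:ℝ) / (((d + 1).choose (i + 1) : ℝ) * T.card)) ≤ (B:ℝ) * D / T.card :=
    (mul_le_mul_of_nonneg_left hlow hε.le).trans (hle.trans hup)
  have h2 : ε * (A:ℝ) ≤ (B:ℝ) * D * ((d + 1).choose (i + 1) : ℝ) := by
    have hp : (0:ℝ) < ((d + 1).choose (i + 1) : ℝ) * T.card := by positivity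
    rw [mul_div_assoc', div_le_div_iff₀ hp hm] at h1
    have h' : ε * (A:ℝ) * T.card ≤ ((B:ℝ) * D * ((d + 1).choose (i + 1) : ℝ)) * T.card := by
      linarith [h1]
    exact le_of_mul_le_mul_right h' hm
  have h3 : (A:ℝ) ≤ (D : ℝ) * 2 ^ (d + 1) / ε * B := by
    rw [div_mul_eq_mul_div, le_div_iff₀ hε]
    have := mul_le_mul_of_nonneg_left hu (show (0:ℝ) ≤ (B:ℝ) * D by positivity)
    linarith
  have h4 : (A:ℝ) ≤ (⌈(D : ℝ) * 2 ^ (d + 1) / ε⌉₊ : ℝ) * B :=
    h3.trans (mul_le_mul_of_nonneg_right (Nat.le_ceil _) (Nat.cast_nonneg _))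
  exact_mod_cast h4

end counts

/-- A linear decoder in degree `i` with `N` faces per face. -/
def Dec (T : Finset (Finset (Fin n))) (i N : ℕ) : Prop :=
  ∃ R : Cochain n →ₗ[ZMod 2] Cochain n,
    (∀ f, (supp T i (R f)).card ≤ N * (supp T (i + 1) f).card) ∧
    ∀ x, cob T i (R (cob T i x)) = cob T i x

section decoders

variable {D : ℕ} {ε : ℝ} {κ : ℕ}
  (hM : ∀ i σ, σ ∈ faces T i → (supp T (i + 1) (cob T i (unit σ))).card ≤ D)
  (hE : ∀ i, i < d → ∀ f, ∃ a ∈ bdry T i,
    (supp T i (f - a)).card ≤ κ * (supp T (i + 1) (cob T i f)).card)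

include hM in
lemma defect {i N : ℕ} {R : Cochain n →ₗ[ZMod 2] Cochain n}
    (h1 : ∀ f, (supp T i (R f)).card ≤ N * (supp T (i + 1) f).card)
    {σ : Finset (Fin n)} (hσ : σ ∈ faces T i) :
    (supp T i (unit σ - R (cob T i (unit σ)))).card ≤ 1 + N * D :=
  (supp_sub_le i _ _).trans (Nat.add_le_add (supp_unit_le i σ)
    ((h1 _).trans (Nat.mul_le_mul_left N (hM i σ hσ))))

include hM hE in
lemma dec_step {i N : ℕ} (hi : i + 1 < d) (h : Dec T (i + 1) N) :
    Dec T i (κ * (1 + N * D)) := by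
  obtain ⟨R, h1, h2⟩ := h
  have key : ∀ σ ∈ faces T (i + 1), ∃ g, (supp T i g).card ≤ κ * (1 + N * D) ∧
      ∀ ρ ∈ faces T (i + 1), cob T i g ρ = (unit σ - R (cob T (i + 1) (unit σ))) ρ := by
    intro σ hσ
    set u := unit σ - R (cob T (i + 1) (unit σ)) with hu
    have hu0 : cob T (i + 1) u = 0 := by rw [hu, map_sub, h2, sub_self]
    obtain ⟨a, ha, hle⟩ := hE (i + 1) hi u
    have heq := eq_of_supp_sub (T := T) (i := i + 1) (f := u) (g := a)
      (by simpa [hu0, supp] using hle)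
    obtain ⟨g₀, rfl⟩ := LinearMap.mem_range.1 ha
    obtain ⟨a₀, ha₀, hle₀⟩ := hE i (by omega) g₀
    refine ⟨g₀ - a₀, hle₀.trans (Nat.mul_le_mul_left κ ?_), fun ρ hρ => ?_⟩
    · rw [← supp_congr heq]
      exact defect hM h1 hσ
    · rw [map_sub, cob_bdry ha₀, sub_zero, heq ρ hρ]
  choose! g hg1 hg2 using key
  refine ⟨ofColumns T (i + 1) g, ofColumns_supp (i + 1) i _ g hg1, fun x => ?_⟩
  set f := cob T i x with hf
  funext ρ
  by_cases hρ : ρ ∈ faces T (i + 1)
  swap
  · rw [cob_off hρ, hf, cob_off hρ]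
  rw [ofColumns_apply, map_sum, Finset.sum_apply]
  calc ∑ σ ∈ faces T (i + 1), cob T i (f σ • g σ) ρ
      = ∑ σ ∈ faces T (i + 1), (f σ • (unit σ - R (cob T (i + 1) (unit σ)))) ρ := by
        refine Finset.sum_congr rfl fun σ hσ => ?_
        rw [map_smul, Pi.smul_apply, Pi.smul_apply, hg2 σ hσ ρ hρ]
    _ = (f - R (cob T (i + 1) f)) ρ := by
        conv_rhs => rw [← sum_units (T := T) (i := i + 1) (f := f) fun σ h => cob_off h]
        simp only [map_sum, map_smul, ← Finset.sum_sub_distrib, smul_sub, Finset.sum_apply]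
    _ = f ρ := by rw [hf, cob_cob, map_zero, sub_zero]

include hM hE in
lemma dec_zero (hd : 0 < d) (hcov : ∀ v : Fin n, {v} ∈ faces T 0) {N : ℕ} (h : Dec T 0 N) :
    n ≤ 1 + N * D := by
  obtain ⟨R, h1, h2⟩ := h
  by_contra hn
  have key : ∀ σ ∈ faces T 0, ∀ ρ ∈ faces T 0, (unit σ - R (cob T 0 (unit σ))) ρ = 0 := by
    intro σ hσ
    set u := unit σ - R (cob T 0 (unit σ)) with hu
    have hu0 : cob T 0 u = 0 := by rw [hu, map_sub, h2, sub_self]
    obtain ⟨a, ha, hle⟩ := hE 0 hd u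
    have heq := eq_of_supp_sub (T := T) (i := 0) (f := u) (g := a)
      (by simpa [hu0, supp] using hle)
    obtain ⟨c, rfl⟩ := Submodule.mem_span_singleton.1 ha
    have hc : c = 0 := by
      by_contra hc
      have hall : Finset.univ.image (fun v : Fin n => ({v} : Finset (Fin n))) ⊆ supp T 0 u := by
        intro ρ hρ
        obtain ⟨v, _, rfl⟩ := Finset.mem_image.1 hρ
        simp [supp, hcov v, heq _ (hcov v), hc]
      have := Finset.card_le_card hall
      rw [Finset.card_image_of_injective _ Finset.singleton_injective, Finset.card_univ,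
        Fintype.card_fin] at this
      have := defect hM h1 hσ
      rw [← hu] at this
      omega
    intro ρ hρ
    rw [heq ρ hρ, hc, zero_smul, Pi.zero_apply]
  set I : Cochain n := fun ρ => if ρ ∈ faces T 0 then 1 else 0 with hI
  have hI0 : cob T 0 I = 0 := by
    funext τ
    by_cases hτ : τ ∈ faces T 1
    · have hc : τ.card = 2 := (mem_faces.1 hτ).1
      have : ∀ ρ ∈ τ.powersetCard 1, I ρ = 1 := fun ρ hρ => by
        rw [Finset.mem_powersetCard] at hρ
        simp [hI, faces_sub hτ hρ.1 hρ.2]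
      simp [cob, hτ, Finset.sum_congr rfl this, hc]
      decide
    · exact cob_off hτ
  obtain ⟨v⟩ : Nonempty (Fin n) := ⟨⟨0, by omega⟩⟩
  have e : (I - R (cob T 0 I)) {v} = 0 := by
    rw [← sum_units (T := T) (i := 0) (f := I) fun σ h => by simp [hI, h]]
    simp only [map_sum, map_smul, ← Finset.sum_sub_distrib, ← smul_sub, Finset.sum_apply,
      Pi.smul_apply]
    exact Finset.sum_eq_zero fun σ hσ => by rw [key σ hσ _ (hcov v), smul_zero]
  rw [hI0, map_zero, sub_zero] at e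
  simp [hI, hcov v] at e

lemma complement (U : Submodule (ZMod 2) (Cochain n)) (S : Finset (Finset (Fin n))) :
    ∃ S₀ ⊆ S,
      (∀ t ∈ S, unit t ∈ U ⊔ Submodule.span (ZMod 2) (unit '' (S₀ : Set (Finset (Fin n))))) ∧
      finrank (ZMod 2) ↥(U ⊔ Submodule.span (ZMod 2) (unit '' (S₀ : Set (Finset (Fin n)))))
        = finrank (ZMod 2) U + S₀.card := by
  induction S using Finset.induction_on with
  | empty =>
    refine ⟨∅, Finset.Subset.rfl, by simp, ?_⟩
    rw [Finset.coe_empty, Set.image_empty, Submodule.span_empty, sup_bot_eq, Finset.card_empty,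
      add_zero]
  | insert t S ht ih =>
    obtain ⟨S₀, hsub, hmem, hrk⟩ := ih
    set W := U ⊔ Submodule.span (ZMod 2) (unit '' (S₀ : Set (Finset (Fin n)))) with hW
    by_cases htW : unit t ∈ W
    · refine ⟨S₀, hsub.trans (Finset.subset_insert t S), ?_, hrk⟩
      intro x hx
      rcases Finset.mem_insert.1 hx with rfl | hx
      exacts [htW, hmem x hx]
    · have hnew : U ⊔ Submodule.span (ZMod 2)
          (unit '' ((insert t S₀ : Finset (Finset (Fin n))) : Set (Finset (Fin n))))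
          = W ⊔ Submodule.span (ZMod 2) {unit t} := by
        rw [Finset.coe_insert, Set.image_insert_eq, Submodule.span_insert, hW, sup_assoc]
        congr 1
        exact sup_comm _ _
      refine ⟨insert t S₀, Finset.insert_subset_insert t hsub, ?_, ?_⟩
      · intro x hx
        rw [hnew]
        rcases Finset.mem_insert.1 hx with rfl | hx
        · exact Submodule.mem_sup_right (Submodule.mem_span_singleton_self _)
        · exact Submodule.mem_sup_left (hmem x hx)
      · have hts : t ∉ S₀ := fun h => ht (hsub h)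
        have h0 : unit t ≠ 0 := fun e => htW (e ▸ W.zero_mem)
        have hd : Disjoint W (Submodule.span (ZMod 2) {unit t}) :=
          (Submodule.disjoint_span_singleton' h0).2 htW
        have := Submodule.finrank_sup_add_finrank_inf_eq W (Submodule.span (ZMod 2) {unit t})
        rw [disjoint_iff.1 hd, finrank_bot, finrank_span_singleton h0, add_zero] at this
        rw [hnew, this, hrk, Finset.card_insert_of_notMem hts]
        omega

lemma finrank_range_le (hT : ∀ τ ∈ T, τ.card = d + 1) {j : ℕ} (hj : j + 1 = d) :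
    LinearMap.range (cob T j) ≤ Submodule.span (ZMod 2) (unit '' (T : Set (Finset (Fin n)))) := by
  rintro _ ⟨x, rfl⟩
  rw [← sum_units (T := T) (i := j + 1) (f := cob T j x) fun σ h => cob_off h]
  refine Submodule.sum_mem _ fun σ hσ => Submodule.smul_mem _ _ (Submodule.subset_span ?_)
  refine ⟨σ, ?_, rfl⟩
  rw [hj, faces_top hT] at hσ
  exact hσ

lemma span_units_le (S : Finset (Finset (Fin n))) :
    finrank (ZMod 2) ↥(Submodule.span (ZMod 2) (unit '' (S : Set (Finset (Fin n))))) ≤ S.card := by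
  rw [← Finset.coe_image]
  exact (finrank_span_finset_le_card _).trans Finset.card_image_le

include hE in
lemma dec_top (hT : ∀ τ ∈ T, τ.card = d + 1) {j : ℕ} (hj : j + 1 = d) :
    Dec T j (κ * (1 + (T.card - finrank (ZMod 2) ↥(LinearMap.range (cob T j))))) := by
  set U := LinearMap.range (cob T j) with hU
  obtain ⟨S₀, hsub, hmem, hrk⟩ := complement U T
  set W₀ := Submodule.span (ZMod 2) (unit '' (S₀ : Set (Finset (Fin n)))) with hW₀
  have hle : U ⊔ W₀ ≤ Submodule.span (ZMod 2) (unit '' (T : Set (Finset (Fin n)))) :=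
    sup_le (finrank_range_le hT hj)
      (Submodule.span_mono (Set.image_mono (Finset.coe_subset.2 hsub)))
  have hcard : S₀.card ≤ T.card - finrank (ZMod 2) U := by
    have := (Submodule.finrank_mono hle).trans (span_units_le T)
    omega
  have hinf : ∀ z ∈ U, z ∈ W₀ → z = 0 := by
    intro z hz hz'
    have h := Submodule.finrank_sup_add_finrank_inf_eq U W₀
    have := span_units_le S₀
    rw [← hW₀] at this
    have h0 : U ⊓ W₀ = ⊥ := Submodule.finrank_eq_zero.1 (by omega)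
    have : z ∈ U ⊓ W₀ := ⟨hz, hz'⟩
    rw [h0] at this
    simpa using this
  have key : ∀ t ∈ T, ∃ g, (supp T j g).card ≤ κ * (1 + (T.card - finrank (ZMod 2) U)) ∧
      unit t - cob T j g ∈ W₀ := by
    intro t ht
    obtain ⟨b, hb, w, hw, hbw⟩ := Submodule.mem_sup.1 (hmem t ht)
    obtain ⟨x, rfl⟩ := LinearMap.mem_range.1 hb
    obtain ⟨a, ha, hle⟩ := hE j (by omega) x
    refine ⟨x - a, hle.trans (Nat.mul_le_mul_left κ ?_), ?_⟩
    · have e : cob T j x = unit t - w := by rw [← hbw]; abel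
      rw [e]
      refine (supp_sub_le _ _ _).trans (Nat.add_le_add (supp_unit_le _ t) (le_trans ?_ hcard))
      refine Finset.card_le_card fun ρ hρ => ?_
      by_contra hne
      obtain ⟨_, hw0⟩ := Finset.mem_filter.1 hρ
      refine hw0 ?_
      have : W₀ ≤ LinearMap.ker (LinearMap.proj (R := ZMod 2) (φ := fun _ => ZMod 2) ρ) := by
        refine Submodule.span_le.2 ?_
        rintro _ ⟨σ, hσ, rfl⟩
        have : ρ ≠ σ := fun e' => hne (e' ▸ hσ)
        simp [unit, this]
      exact LinearMap.mem_ker.1 (this hw)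
    · rw [map_sub, cob_bdry ha, sub_zero, ← hbw]
      simpa using hw
  choose! g hg1 hg2 using key
  have hF : faces T (j + 1) = T := by rw [hj, faces_top hT]
  refine ⟨ofColumns T (j + 1) g, ofColumns_supp (j + 1) j _ g (fun σ hσ => hg1 σ (hF ▸ hσ)),
    fun x => ?_⟩
  set f := cob T j x with hf
  have hz : f - cob T j (ofColumns T (j + 1) g f) ∈ W₀ := by
    have e := sum_units (T := T) (i := j + 1) (f := f) fun σ h => cob_off h
    nth_rewrite 1 [← e]
    rw [ofColumns_apply, map_sum, ← Finset.sum_sub_distrib]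
    refine Submodule.sum_mem _ fun σ hσ => ?_
    rw [map_smul, ← smul_sub]
    exact Submodule.smul_mem _ _ (hg2 σ (hF ▸ hσ))
  have h0 := hinf _ (U.sub_mem (LinearMap.mem_range_self _ x) (LinearMap.mem_range_self _ _)) hz
  exact (sub_eq_zero.1 h0).symm

end decoders

theorem linear_top_cohomology (d : ℕ) (hd : 1 ≤ d) (D : ℕ) (ε : ℝ) (hε : 0 < ε) :
    ∃ K : ℕ, ∀ (n : ℕ) (T : Finset (Finset (Fin n))),
      (∀ τ ∈ T, τ.card = d + 1) → (∀ v, ∃ τ ∈ T, v ∈ τ) →
      (∀ v, (T.filter fun τ => v ∈ τ).card ≤ D) → IsExpander T d ε →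
      finrank (ZMod 2) ↥(LinearMap.range (cob T (d - 1))) ≤ T.card ∧
      n ≤ K * (T.card - finrank (ZMod 2) ↥(LinearMap.range (cob T (d - 1))) + 1) := by
  set M := D * 2 ^ (d + 1) with hMdef
  set κ := ⌈(D : ℝ) * 2 ^ (d + 1) / ε⌉₊ with hκdef
  set A := (κ + 1) * (M + 1) with hA
  refine ⟨A ^ (d + 1), fun n T hT hcov hD hX => ?_⟩
  obtain ⟨j, rfl⟩ : ∃ j, d = j + 1 := ⟨d - 1, by omega⟩
  rw [show j + 1 - 1 = j from rfl]
  set h := T.card - finrank (ZMod 2) ↥(LinearMap.range (cob T j)) with hh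
  refine ⟨(Submodule.finrank_mono (finrank_range_le hT rfl)).trans (span_units_le T), ?_⟩
  have hM : ∀ i σ, σ ∈ faces T i → (supp T (i + 1) (cob T i (unit σ))).card ≤ M :=
    fun i σ hσ => supp_cob_unit hT D hD (mem_faces.1 hσ).1
  have hE : ∀ i, i < j + 1 → ∀ f, ∃ a ∈ bdry T i,
      (supp T i (f - a)).card ≤ κ * (supp T (i + 1) (cob T i f)).card :=
    fun i hi f => expand D hD hε hX hi f
  have hdec : ∀ k, k ≤ j → ∃ N, N + 1 ≤ A ^ (k + 1) * (h + 1) ∧ Dec T (j - k) N := by
    intro k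
    induction k with
    | zero =>
      intro _
      refine ⟨κ * (1 + h), ?_, dec_top hE hT rfl⟩
      rw [zero_add, pow_one, hA]
      nlinarith [Nat.zero_le (M * (h + 1)), Nat.zero_le (κ * M * (h + 1))]
    | succ k ih =>
      intro hk
      obtain ⟨N, hN, hdecN⟩ := ih (by omega)
      have hidx : j - k = j - (k + 1) + 1 := by omega
      rw [hidx] at hdecN
      refine ⟨κ * (1 + N * M), ?_, dec_step hM hE (by omega) hdecN⟩
      calc κ * (1 + N * M) + 1 ≤ A * (N + 1) := by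
            rw [hA]; nlinarith [Nat.zero_le (κ * M), Nat.zero_le (κ * N), Nat.zero_le (M * N)]
        _ ≤ A * (A ^ (k + 1) * (h + 1)) := Nat.mul_le_mul_left A hN
        _ = A ^ (k + 1 + 1) * (h + 1) := by ring
  obtain ⟨N, hN, hdecN⟩ := hdec j le_rfl
  rw [Nat.sub_self] at hdecN
  have hcov' : ∀ v : Fin n, {v} ∈ faces T 0 := fun v => by
    obtain ⟨τ, hτ, hv⟩ := hcov v
    exact mem_faces.2 ⟨Finset.card_singleton v, τ, hτ, Finset.singleton_subset_iff.2 hv⟩
  refine (dec_zero hM hE (Nat.succ_pos j) hcov' hdecN).trans ?_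
  calc 1 + N * M ≤ A * (N + 1) := by
        rw [hA]; nlinarith [Nat.zero_le (κ * M), Nat.zero_le (κ * N * M), Nat.zero_le (κ * N)]
    _ ≤ A * (A ^ (j + 1) * (h + 1)) := Nat.mul_le_mul_left A hN
    _ = A ^ (j + 1 + 1) * (h + 1) := by ring

end Vale.Agent.P067
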