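import Mathlib

/-!
Finite pure simplicial complexes given by their top faces, mod-two coboundaries and coboundary
expansion.
-/

namespace Vale.Agent.P067

variable {n : ℕ}

/-- The faces with `i + 1` vertices of the complex whose top faces are the members of `T`. -/
def faces (T : Finset (Finset (Fin n))) (i : ℕ) : Finset (Finset (Fin n)) :=
  Finset.univ.filter fun σ => σ.card = i + 1 ∧ ∃ τ ∈ T, σ ⊆ τ

/-- The weight of an `i`-face. -/
noncomputable def weight (T : Finset (Finset (Fin n))) (d i : ℕ) (σ : Finset (Fin n)) : ℝ :=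
  ((T.filter fun τ => σ ⊆ τ).card : ℝ) / (((d + 1).choose (i + 1) : ℝ) * (T.card : ℝ))

/-- Mod-two cochains; in degree `i` only the values on the `i`-faces matter. -/
abbrev Cochain (n : ℕ) := Finset (Fin n) → ZMod 2

/-- The coboundary from degree `i` to degree `i + 1`. -/
def cob (T : Finset (Finset (Fin n))) (i : ℕ) : Cochain n →ₗ[ZMod 2] Cochain n where
  toFun f τ := if τ ∈ faces T (i + 1) then ∑ σ ∈ τ.powersetCard (i + 1), f σ else 0
  map_add' f g := by
    funext τ
    by_cases h : τ ∈ faces T (i + 1) <;> simp [h, Finset.sum_add_distrib]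
  map_smul' c f := by
    funext τ
    by_cases h : τ ∈ faces T (i + 1) <;> simp [h, Finset.mul_sum]

/-- The norm of an `i`-cochain: the total weight of the `i`-faces where it is nonzero. -/
noncomputable def cNorm (T : Finset (Finset (Fin n))) (d i : ℕ) (f : Cochain n) : ℝ :=
  ∑ σ ∈ (faces T i).filter (fun σ => f σ ≠ 0), weight T d i σ

/-- The coboundaries: constants in degree zero, the image of the coboundary above. -/
def bdry (T : Finset (Finset (Fin n))) : ℕ → Submodule (ZMod 2) (Cochain n)
  | 0 => Submodule.span (ZMod 2) {fun _ => 1}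
  | i + 1 => LinearMap.range (cob T i)

/-- Coboundary expansion with constant `ε` in every degree below `d`. -/
def IsExpander (T : Finset (Finset (Fin n))) (d : ℕ) (ε : ℝ) : Prop :=
  ∀ i, i < d → ∀ f : Cochain n, ∃ a ∈ bdry T i,
    ε * cNorm T d i (f - a) ≤ cNorm T d (i + 1) (cob T i f)

end Vale.Agent.P067
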